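import Mathlib

/-!
# P101: the normed ring quotient by a closed two-sided ideal
-/

namespace Vale.P101

variable {R : Type*} [NormedRing R] [NormedAlgebra ℂ R] (I : Ideal R) [I.IsTwoSided]
  [IsClosed (I : Set R)]

theorem quot_norm_mk_le (r : R) : ‖Ideal.Quotient.mk I r‖ ≤ ‖r‖ :=
  Submodule.Quotient.norm_mk_le I r

theorem quot_exists_norm_lt (x : R ⧸ I) {ε : ℝ} (hε : 0 < ε) :
    ∃ r : R, Ideal.Quotient.mk I r = x ∧ ‖r‖ < ‖x‖ + ε :=
  QuotientAddGroup.exists_norm_mk_lt x hε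

theorem quot_norm_mul_le (x y : R ⧸ I) : ‖x * y‖ ≤ ‖x‖ * ‖y‖ := by
  refine le_of_forall_gt_imp_ge_of_dense fun c hc => ?_
  obtain ⟨δ, hδ, hδc⟩ : ∃ δ > 0, (‖x‖ + δ) * (‖y‖ + δ) ≤ c := by
    have hcont : Continuous fun δ : ℝ => (‖x‖ + δ) * (‖y‖ + δ) := by fun_prop
    have hev := (hcont.tendsto 0).eventually (eventually_le_nhds (b := c) (by simpa using hc))
    obtain ⟨ε, hε, hball⟩ := Metric.eventually_nhds_iff.1 hev
    exact ⟨ε / 2, half_pos hε, hball (by rw [Real.dist_eq, sub_zero, abs_of_pos] <;> linarith)⟩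
  obtain ⟨a, rfl, ha⟩ := quot_exists_norm_lt I x hδ
  obtain ⟨b, rfl, hb⟩ := quot_exists_norm_lt I y hδ
  calc ‖Ideal.Quotient.mk I a * Ideal.Quotient.mk I b‖ ≤ ‖a * b‖ := quot_norm_mk_le I _
    _ ≤ ‖a‖ * ‖b‖ := norm_mul_le a b
    _ ≤ _ := le_trans (mul_le_mul ha.le hb.le (norm_nonneg _) (by positivity)) hδc

/-- The quotient of a normed ring by a closed two-sided ideal is a normed ring. -/
noncomputable instance quotNormedRing : NormedRing (R ⧸ I) where
  toRing := Ideal.Quotient.ring I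
  toNorm := (Submodule.Quotient.normedAddCommGroup I).toNorm
  toMetricSpace := (Submodule.Quotient.normedAddCommGroup I).toMetricSpace
  dist_eq := (Submodule.Quotient.normedAddCommGroup I).dist_eq
  norm_mul_le := quot_norm_mul_le I

noncomputable instance quotNormedAlgebra : NormedAlgebra ℂ (R ⧸ I) :=
  { (Ideal.Quotient.algebra ℂ : Algebra ℂ (R ⧸ I)) with
    norm_smul_le := fun c x => by
      refine le_of_forall_pos_le_add fun ε hε => ?_
      obtain ⟨a, rfl, ha⟩ := quot_exists_norm_lt I x (ε := ε / (‖c‖ + 1)) (by positivity)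
      calc ‖c • Ideal.Quotient.mk I a‖ = ‖Ideal.Quotient.mk I (c • a)‖ := rfl
        _ ≤ ‖c • a‖ := quot_norm_mk_le I _
        _ ≤ ‖c‖ * ‖a‖ := norm_smul_le c a
        _ ≤ ‖c‖ * (‖Ideal.Quotient.mk I a‖ + ε / (‖c‖ + 1)) :=
            mul_le_mul_of_nonneg_left ha.le (norm_nonneg c)
        _ ≤ _ := by
            rw [mul_add]
            refine add_le_add le_rfl ?_
            rw [mul_div_assoc', div_le_iff₀ (by positivity)]
            nlinarith [norm_nonneg c] }

instance quotCompleteSpace [CompleteSpace R] : CompleteSpace (R ⧸ I) :=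
  Submodule.Quotient.completeSpace I

end Vale.P101
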