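import Vale.Agent.P101.Copies
import Vale.Agent.P101.Quot

/-!
# P101: the central sequence algebra

`NullSeq A ω` is the closed two-sided ideal of bounded sequences with norm tending to `0` along `ω`,
`Ultrapower A ω` the quotient of the bounded sequences by it and `Central A ω` the relative
commutant of the constant sequences.  `copyProp_central` is the reindexing property of the latter.
-/

open scoped BoundedContinuousFunction
open Filter Topology

namespace Vale.P101

noncomputable section

variable (A : Type*) [CStarAlgebra A] (ω : Ultrafilter ℕ)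

/-- Bounded sequences whose norms tend to zero along the ultrafilter. -/
def NullSeq : Ideal (ℕ →ᵇ A) where
  carrier := {a | Tendsto (fun n => ‖a n‖) ω (𝓝 0)}
  add_mem' {a b} ha hb :=
    squeeze_zero (fun n => norm_nonneg _) (fun n => norm_add_le (a n) (b n))
      (by simpa using Tendsto.add ha hb)
  zero_mem' := by simp
  smul_mem' c a ha :=
    squeeze_zero (fun n => norm_nonneg _)
      (fun n => (norm_mul_le (c n) (a n)).trans
        (mul_le_mul_of_nonneg_right (c.norm_coe_le_norm n) (norm_nonneg _)))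
      (by simpa using Tendsto.const_mul ‖c‖ ha)

variable {A ω}

theorem mem_nullSeq {a : ℕ →ᵇ A} : a ∈ NullSeq A ω ↔ Tendsto (fun n => ‖a n‖) ω (𝓝 0) := Iff.rfl

theorem star_mem_nullSeq {a : ℕ →ᵇ A} (ha : a ∈ NullSeq A ω) : star a ∈ NullSeq A ω := by
  rw [mem_nullSeq] at ha ⊢
  simpa using ha

variable (A ω)

instance : (NullSeq A ω).IsTwoSided :=
  ⟨fun {a} b ha => squeeze_zero (fun n => norm_nonneg _)
    (fun n => (norm_mul_le (a n) (b n)).trans
      (mul_le_mul_of_nonneg_left (b.norm_coe_le_norm n) (norm_nonneg _)))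
    (by simpa using Tendsto.mul_const ‖b‖ ha)⟩

instance : IsClosed (NullSeq A ω : Set (ℕ →ᵇ A)) := by
  refine isClosed_of_closure_subset fun a ha => ?_
  rw [Metric.mem_closure_iff] at ha
  rw [SetLike.mem_coe, mem_nullSeq, Metric.tendsto_nhds]
  intro ε hε
  obtain ⟨b, hb, hab⟩ := ha (ε / 2) (half_pos hε)
  filter_upwards [Metric.tendsto_nhds.1 (mem_nullSeq.1 hb) (ε / 2) (half_pos hε)] with n hn
  have h1 := (a.dist_coe_le_dist (g := b) n)
  rw [dist_eq_norm] at h1
  rw [Real.dist_eq, sub_zero, abs_of_nonneg (norm_nonneg _)] at hn ⊢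
  linarith [norm_le_insert' (a n) (b n)]

/-- The ultrapower `A_ω`. -/
abbrev Ultrapower : Type _ := (ℕ →ᵇ A) ⧸ NullSeq A ω

variable {A}

/-- The class of a bounded sequence. -/
abbrev cls : (ℕ →ᵇ A) →ₐ[ℂ] Ultrapower A ω := Ideal.Quotient.mkₐ ℂ (NullSeq A ω)

theorem cls_surjective : Function.Surjective (cls ω : (ℕ →ᵇ A) → Ultrapower A ω) :=
  Ideal.Quotient.mk_surjective

theorem cls_eq_cls {a b : ℕ →ᵇ A} : cls ω a = cls ω b ↔ a - b ∈ NullSeq A ω :=
  Ideal.Quotient.eq

/-- The norm along `ω` of a bounded sequence. -/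
noncomputable def limNorm (a : ℕ →ᵇ A) : ℝ := limUnder (ω : Filter ℕ) fun n => ‖a n‖

theorem tendsto_limNorm (a : ℕ →ᵇ A) : Tendsto (fun n => ‖a n‖) ω (𝓝 (limNorm ω a)) := by
  obtain ⟨L, -, hL⟩ := (isCompact_Icc (a := (0 : ℝ)) (b := ‖a‖)).ultrafilter_le_nhds
    (ω.map fun n => ‖a n‖) (by
      rw [Ultrafilter.coe_map, Filter.le_principal_iff, Filter.mem_map]
      exact Filter.univ_mem' fun n => ⟨norm_nonneg _, a.norm_coe_le_norm n⟩)
  rw [Ultrafilter.coe_map] at hL
  exact tendsto_nhds_limUnder ⟨L, hL⟩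

theorem norm_cls (a : ℕ →ᵇ A) : ‖cls ω a‖ = limNorm ω a := by
  apply le_antisymm
  · refine le_of_forall_pos_le_add fun ε hε => ?_
    set S : Set ℕ := {n | ‖a n‖ < limNorm ω a + ε}
    have hS : S ∈ (ω : Filter ℕ) := (tendsto_limNorm ω a).eventually (eventually_lt_nhds (by linarith))
    classical
    have hL : 0 ≤ limNorm ω a := ge_of_tendsto' (tendsto_limNorm ω a) fun n => norm_nonneg _
    have hb : ∀ n, ‖if n ∈ S then a n else 0‖ ≤ limNorm ω a + ε := fun n => by
      split_ifs with h
      · exact le_of_lt h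
      · simp; linarith
    set b : ℕ →ᵇ A := BoundedContinuousFunction.ofNormedAddCommGroup _
      (continuous_of_discreteTopology (f := fun n => if n ∈ S then a n else 0)) _ hb
    have he : cls ω a = cls ω b := by
      rw [cls_eq_cls, mem_nullSeq]
      refine tendsto_const_nhds.congr' ?_
      filter_upwards [hS] with n hn
      simp [b, hn]
    rw [he]
    exact (quot_norm_mk_le (NullSeq A ω) b).trans
      (BoundedContinuousFunction.norm_ofNormedAddCommGroup_le _ (by linarith) hb)
  · refine le_of_forall_pos_le_add fun ε hε => ?_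
    obtain ⟨b, hb, hbn⟩ := quot_exists_norm_lt (NullSeq A ω) (cls ω a) hε
    have hab : a - b ∈ NullSeq A ω := (cls_eq_cls ω).1 hb.symm
    refine le_trans ?_ hbn.le
    refine le_of_tendsto_of_tendsto (tendsto_limNorm ω a)
      (b := (ω : Filter ℕ)) (g := fun n => ‖(a - b) n‖ + ‖b‖)
      (by simpa using (mem_nullSeq.1 hab).add_const ‖b‖) (Eventually.of_forall fun n => ?_)
    calc ‖a n‖ = ‖(a - b) n + b n‖ := by simp
      _ ≤ _ := (norm_add_le _ _).trans (add_le_add le_rfl (b.norm_coe_le_norm n))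

instance : Star (Ultrapower A ω) :=
  ⟨Quotient.map' star fun a b h => by
    rw [Submodule.quotientRel_def] at h ⊢
    simpa using star_mem_nullSeq h⟩

theorem star_cls (a : ℕ →ᵇ A) : star (cls ω a) = cls ω (star a) := rfl

instance : StarRing (Ultrapower A ω) where
  star_involutive x := by
    obtain ⟨a, rfl⟩ := cls_surjective ω x
    rw [star_cls, star_cls, star_star]
  star_mul x y := by
    obtain ⟨a, rfl⟩ := cls_surjective ω x
    obtain ⟨b, rfl⟩ := cls_surjective ω y
    rw [← map_mul, star_cls, star_cls, star_cls, ← map_mul, star_mul]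
  star_add x y := by
    obtain ⟨a, rfl⟩ := cls_surjective ω x
    obtain ⟨b, rfl⟩ := cls_surjective ω y
    rw [← map_add, star_cls, star_cls, star_cls, ← map_add, star_add]

instance : StarModule ℂ (Ultrapower A ω) where
  star_smul c x := by
    obtain ⟨a, rfl⟩ := cls_surjective ω x
    rw [← map_smul, star_cls, star_cls, ← map_smul, star_smul]

instance : CStarRing (Ultrapower A ω) where
  norm_mul_self_le x := by
    obtain ⟨a, rfl⟩ := cls_surjective ω x
    rw [star_cls, ← map_mul, norm_cls, norm_cls]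
    refine le_of_tendsto_of_tendsto ((tendsto_limNorm ω a).mul (tendsto_limNorm ω a))
      (tendsto_limNorm ω (star a * a)) (Eventually.of_forall fun n => ?_)
    simp [CStarRing.norm_star_mul_self]

noncomputable instance : CStarAlgebra (Ultrapower A ω) where

/-- The constant sequence. -/
abbrev constSeq (a : A) : Ultrapower A ω := cls ω (BoundedContinuousFunction.const ℕ a)

variable (A)

/-- The central sequence algebra `F_ω(A) = A_ω ∩ A'`. -/
def Central : StarSubalgebra ℂ (Ultrapower A ω) :=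
  StarSubalgebra.centralizer ℂ (Set.range (constSeq (A := A) ω))

variable {A}

theorem mem_central {x : Ultrapower A ω} : x ∈ Central A ω ↔ ∀ a : A, Commute (constSeq ω a) x := by
  rw [Central, StarSubalgebra.mem_centralizer_iff]
  refine ⟨fun h a => (h _ ⟨a, rfl⟩).1, ?_⟩
  rintro h _ ⟨a, rfl⟩
  refine ⟨h a, ?_⟩
  rw [star_cls]
  exact h (star a)

instance : IsClosed (Central A ω : Set (Ultrapower A ω)) := by
  rw [Central, StarSubalgebra.coe_centralizer]
  exact Set.isClosed_centralizer _

noncomputable instance : CStarAlgebra (Central A ω) := StarSubalgebra.cstarAlgebra _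

/-- Reindexing of bounded sequences along a map of the indices. -/
noncomputable def reindex (m : ℕ → ℕ) : (ℕ →ᵇ A) →⋆ₐ[ℂ] (ℕ →ᵇ A) where
  toFun f := BoundedContinuousFunction.ofNormedAddCommGroup (fun n => f (m n))
    continuous_of_discreteTopology ‖f‖ fun n => f.norm_coe_le_norm (m n)
  map_one' := by ext; rfl
  map_mul' f g := by ext; rfl
  map_zero' := by ext; rfl
  map_add' f g := by ext; rfl
  commutes' c := by ext; rfl
  map_star' f := by ext; rfl

theorem reindex_apply (m : ℕ → ℕ) (f : ℕ →ᵇ A) (n : ℕ) : reindex m f n = f (m n) := rfl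

theorem norm_reindex_le (m : ℕ → ℕ) (f : ℕ →ᵇ A) : ‖reindex m f‖ ≤ ‖f‖ :=
  BoundedContinuousFunction.norm_ofNormedAddCommGroup_le _ (norm_nonneg f) fun n => f.norm_coe_le_norm (m n)

/-- The class map as a star homomorphism. -/
noncomputable def clsStar : (ℕ →ᵇ A) →⋆ₐ[ℂ] Ultrapower A ω :=
  { cls ω with map_star' := fun a => (star_cls ω a).symm }

theorem clsStar_apply (a : ℕ →ᵇ A) : clsStar ω a = cls ω a := rfl

theorem isSeparable_adjoin {E : Type*} [CStarAlgebra E] {s : Set E} (hs : s.Countable) :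
    TopologicalSpace.IsSeparable (StarAlgebra.adjoin ℂ s : Set E) := by
  have h : ((StarAlgebra.adjoin ℂ s : StarSubalgebra ℂ E) : Set E) =
      (Submodule.span ℂ (Submonoid.closure (s ∪ star s) : Set E) : Set E) := by
    rw [← StarAlgebra.adjoin_eq_span]
    rfl
  rw [h]
  refine TopologicalSpace.IsSeparable.span (Set.Countable.isSeparable ?_)
  have hc : (s ∪ star s).Countable := hs.union (by rw [← Set.image_star]; exact hs.image _)
  have : Countable ↥(s ∪ star s) := hc.to_subtype
  rw [Submonoid.closure_eq_mrange, MonoidHom.coe_mrange]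
  exact Set.countable_range _

/-- A homomorphism on the range of another one, when kernels are nested. -/
theorem exists_desc {L B E : Type*} [Ring L] [Algebra ℂ L] [StarRing L] [Ring B] [Algebra ℂ B]
    [StarRing B] [Ring E] [Algebra ℂ E] [StarRing E] (π : L →⋆ₐ[ℂ] B) (hπ : Function.Surjective π)
    (θ : L →⋆ₐ[ℂ] E) (h : ∀ l, π l = 0 → θ l = 0) :
    ∃ ρ : B →⋆ₐ[ℂ] E, ∀ l, ρ (π l) = θ l := by
  let g := Function.surjInv hπ
  have hg : ∀ b, π (g b) = b := Function.surjInv_eq hπ
  have key : ∀ l, θ (g (π l)) = θ l := fun l => by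
    rw [← sub_eq_zero, ← map_sub]
    exact h _ (by rw [map_sub, hg, sub_self])
  refine ⟨{ toFun := fun b => θ (g b), map_one' := ?_, map_mul' := fun a b => ?_, map_zero' := ?_,
            map_add' := fun a b => ?_, commutes' := fun c => ?_, map_star' := fun b => ?_ }, key⟩
  · rw [← map_one π, key, map_one]
  · conv_lhs => rw [← hg a, ← hg b, ← map_mul, key, map_mul]
  · rw [← map_zero π, key, map_zero]
  · conv_lhs => rw [← hg a, ← hg b, ← map_add, key, map_add]
  · rw [← AlgHomClass.commutes π, key, AlgHomClass.commutes]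
  · conv_lhs => rw [← hg b, ← map_star, key, map_star]

/-- A commutator which tends to zero along `ω` vanishes in the ultrapower. -/
theorem commute_cls_of_tendsto {f g : ℕ →ᵇ A}
    (h : Tendsto (fun n => ‖f n * g n - g n * f n‖) ω (𝓝 0)) : Commute (cls ω f) (cls ω g) := by
  rw [Commute, SemiconjBy, ← map_mul, ← map_mul, cls_eq_cls, mem_nullSeq]
  simpa using h

theorem tendsto_of_commute_cls {f g : ℕ →ᵇ A} (h : Commute (cls ω f) (cls ω g)) :
    Tendsto (fun n => ‖f n * g n - g n * f n‖) ω (𝓝 0) := by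
  rw [Commute, SemiconjBy, ← map_mul, ← map_mul, cls_eq_cls, mem_nullSeq] at h
  simpa using h

/-- Reindexing: finitely generated star subalgebras of the central sequence algebra have copies
commuting with any prescribed finite set. -/
theorem copyProp_central [TopologicalSpace.SeparableSpace A] (hω : (ω : Filter ℕ) ≤ cofinite) :
    CopyProp (Central A ω) := by
  classical
  intro s t hs ht
  choose lift hlift using fun b : Central A ω => cls_surjective ω (b : Ultrapower A ω)
  let L : StarSubalgebra ℂ (ℕ →ᵇ A) := StarAlgebra.adjoin ℂ (lift '' s)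
  let s' : Set (ℕ →ᵇ A) := lift '' s ∪ star '' (lift '' s)
  have hs' : s'.Finite := (hs.image _).union ((hs.image _).image _)
  have hcen : ∀ f ∈ s', ∀ a : A, Tendsto (fun k => ‖f k * a - a * f k‖) ω (𝓝 0) := by
    intro f hf a
    have : cls ω f ∈ Central A ω := by
      rcases hf with ⟨b, -, rfl⟩ | ⟨_, ⟨b, -, rfl⟩, rfl⟩
      · rw [hlift]; exact b.2
      · rw [← star_cls, hlift]; exact star_mem b.2
    simpa using tendsto_of_commute_cls ω ((mem_central ω).1 this a).symm
  obtain ⟨D, hD, hLD⟩ := isSeparable_adjoin (hs.image lift).countable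
  obtain ⟨x, hx⟩ := (hD.insert 0).exists_eq_range (Set.insert_nonempty _ _)
  obtain ⟨a, ha⟩ := TopologicalSpace.exists_dense_seq A
  -- the index map
  let P : ℕ → ℕ → Prop := fun n k => (∀ j ∈ Finset.range (n + 1),
      ‖x j k‖ ≤ limNorm ω (x j) + 1 / ((n : ℝ) + 1)) ∧
    (∀ f ∈ hs'.toFinset, ∀ j ∈ Finset.range (n + 1), ‖f k * a j - a j * f k‖ ≤ 1 / ((n : ℝ) + 1)) ∧
    ∀ f ∈ hs'.toFinset, ∀ c ∈ ht.toFinset,
      ‖f k * lift c n - lift c n * f k‖ ≤ 1 / ((n : ℝ) + 1)
  have hP : ∀ n, ∃ k, P n k := fun n => by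
    have hpos : (0 : ℝ) < 1 / ((n : ℝ) + 1) := by positivity
    refine Filter.Eventually.exists (f := (ω : Filter ℕ)) ?_
    simp only [P, Filter.eventually_and, Filter.eventually_all_finset]
    refine ⟨fun j _ => (tendsto_limNorm ω (x j)).eventually (eventually_le_nhds (by linarith)),
      fun f hf j _ => ?_, fun f hf c _ => ?_⟩
    · exact (hcen f (hs'.mem_toFinset.1 hf) (a j)).eventually (eventually_le_nhds hpos)
    · exact (hcen f (hs'.mem_toFinset.1 hf) (lift c n)).eventually (eventually_le_nhds hpos)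
  choose m hm using hP
  have hone : Tendsto (fun n : ℕ => 1 / ((n : ℝ) + 1)) ω (𝓝 0) :=
    (tendsto_one_div_add_atTop_nhds_zero_nat (𝕜 := ℝ)).mono_left (Nat.cofinite_eq_atTop ▸ hω)
  have hbig : ∀ j, ∀ᶠ n in (ω : Filter ℕ), j ∈ Finset.range (n + 1) := fun j => by
    refine hω ?_
    rw [Nat.cofinite_eq_atTop]
    exact (eventually_ge_atTop j).mono fun n hn => Finset.mem_range.2 (by omega)
  let θ₀ : (ℕ →ᵇ A) →⋆ₐ[ℂ] Ultrapower A ω := (clsStar ω).comp (reindex m)
  have hθ₀ : ∀ f, θ₀ f = cls ω (reindex m f) := fun f => rfl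
  -- norms do not grow
  have hnorm : ∀ f ∈ L, ‖θ₀ f‖ ≤ ‖cls ω f‖ := by
    have hcl : IsClosed {f : ℕ →ᵇ A | ‖θ₀ f‖ ≤ ‖cls ω f‖} := by
      have c1 : Continuous fun f : ℕ →ᵇ A => cls ω (reindex m f) :=
        AddMonoidHomClass.continuous_of_bound
          ((cls ω).toLinearMap.comp (reindex m).toAlgHom.toLinearMap) 1 fun f => by
            rw [one_mul]
            exact (quot_norm_mk_le (NullSeq A ω) _).trans (norm_reindex_le m f)
      have c2 : Continuous fun f : ℕ →ᵇ A => cls ω f :=
        AddMonoidHomClass.continuous_of_bound (cls ω).toLinearMap 1 fun f => by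
          rw [one_mul]
          exact quot_norm_mk_le (NullSeq A ω) f
      exact isClosed_le c1.norm c2.norm
    intro f hf
    refine closure_minimal ?_ hcl (closure_mono (Set.subset_insert 0 D) (hLD hf))
    rw [hx]
    rintro _ ⟨j, rfl⟩
    show ‖θ₀ (x j)‖ ≤ ‖cls ω (x j)‖
    rw [hθ₀, norm_cls, norm_cls]
    refine le_of_tendsto_of_tendsto (tendsto_limNorm ω _)
      (by simpa using tendsto_const_nhds.add hone) ?_
    filter_upwards [hbig j] with n hn
    simpa [reindex_apply] using (hm n).1 j hn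
  have hcomm_const : ∀ f ∈ s', ∀ b : A, Commute (constSeq ω b) (θ₀ f) := by
    intro f hf
    have hcl : IsClosed {b : A | Commute (constSeq ω b) (θ₀ f)} := by
      have hc : Continuous fun b : A => constSeq ω b :=
        (AddMonoidHomClass.continuous_of_bound (cls ω).toLinearMap 1 fun g => by
          rw [one_mul]
          exact quot_norm_mk_le (NullSeq A ω) g).comp
        (Isometry.continuous (Isometry.of_dist_eq fun p q => by
          simp [dist_eq_norm, BoundedContinuousFunction.norm_eq_iSup_norm]))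
      exact isClosed_eq (hc.mul continuous_const) (continuous_const.mul hc)
    intro b
    refine closure_minimal ?_ hcl (ha b)
    rintro _ ⟨j, rfl⟩
    refine (commute_cls_of_tendsto ω ?_).symm
    refine squeeze_zero' (Eventually.of_forall fun n => norm_nonneg _) ?_ hone
    filter_upwards [hbig j] with n hn
    simpa [reindex_apply] using (hm n).2.1 f (hs'.mem_toFinset.2 hf) j hn
  have hcomm_t : ∀ f ∈ s', ∀ c ∈ t, Commute (θ₀ f) (c : Ultrapower A ω) := by
    intro f hf c hc
    rw [← hlift c]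
    refine commute_cls_of_tendsto ω ?_
    refine squeeze_zero' (Eventually.of_forall fun n => norm_nonneg _) ?_ hone
    exact Eventually.of_forall fun n =>
      (hm n).2.2 f (hs'.mem_toFinset.2 hf) c (ht.mem_toFinset.2 hc)
  have hbase : ∀ f ∈ lift '' s, f ∈ s' ∧ star f ∈ s' := fun f hf =>
    ⟨Or.inl hf, Or.inr ⟨f, hf, rfl⟩⟩
  -- the image commutes with the constants and with `t`
  have hθ : ∀ f ∈ L, θ₀ f ∈ Central A ω ∧ ∀ c ∈ t, Commute (θ₀ f) (c : Ultrapower A ω) ∧
      Commute (θ₀ (star f)) (c : Ultrapower A ω) := by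
    intro f hf
    induction hf using StarAlgebra.adjoin_induction with
    | mem f hf =>
      exact ⟨(mem_central ω).2 (hcomm_const f (hbase f hf).1),
        fun c hc => ⟨hcomm_t f (hbase f hf).1 c hc, hcomm_t _ (hbase f hf).2 c hc⟩⟩
    | algebraMap r =>
      refine ⟨by rw [AlgHomClass.commutes]; exact algebraMap_mem _ r, fun c _ => ?_⟩
      rw [← algebraMap_star_comm, AlgHomClass.commutes, AlgHomClass.commutes]
      exact ⟨Algebra.commute_algebraMap_left r _, Algebra.commute_algebraMap_left _ _⟩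
    | add f g _ _ ihf ihg =>
      refine ⟨by rw [map_add]; exact add_mem ihf.1 ihg.1, fun c hc => ?_⟩
      rw [star_add, map_add, map_add]
      exact ⟨(ihf.2 c hc).1.add_left (ihg.2 c hc).1, (ihf.2 c hc).2.add_left (ihg.2 c hc).2⟩
    | mul f g _ _ ihf ihg =>
      refine ⟨by rw [map_mul]; exact mul_mem ihf.1 ihg.1, fun c hc => ?_⟩
      rw [star_mul, map_mul, map_mul]
      exact ⟨(ihf.2 c hc).1.mul_left (ihg.2 c hc).1, (ihg.2 c hc).2.mul_left (ihf.2 c hc).2⟩
    | star f _ ih =>
      refine ⟨by rw [map_star]; exact star_mem ih.1, fun c hc => ?_⟩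
      rw [star_star]
      exact ⟨(ih.2 c hc).2, (ih.2 c hc).1⟩
  -- the class map from `L` onto `gen s`
  let incl : Central A ω →⋆ₐ[ℂ] Ultrapower A ω := (Central A ω).subtype
  have hmap : L.map (clsStar ω) = (gen s).map incl := by
    rw [show L.map (clsStar ω) = StarAlgebra.adjoin ℂ (clsStar ω '' (lift '' s)) from
      (StarAlgHom.map_adjoin _ _),
      show (gen s).map incl = StarAlgebra.adjoin ℂ (incl '' s) from (StarAlgHom.map_adjoin _ _),
      Set.image_image]
    congr 1
    exact Set.image_congr fun b _ => hlift b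
  have hfrom : ∀ l : L, cls ω (l : ℕ →ᵇ A) ∈ Central A ω := fun l => by
    have : clsStar ω (l : ℕ →ᵇ A) ∈ L.map (clsStar ω) := ⟨l, l.2, rfl⟩
    rw [hmap] at this
    obtain ⟨b, -, hb⟩ := this
    rw [← clsStar_apply, ← hb]
    exact b.2
  let π₁ : L →⋆ₐ[ℂ] Central A ω := ((clsStar ω).comp L.subtype).codRestrict (Central A ω) hfrom
  have hπ₁ : ∀ l, π₁ l ∈ gen s := fun l => by
    have : clsStar ω (l : ℕ →ᵇ A) ∈ L.map (clsStar ω) := ⟨l, l.2, rfl⟩
    rw [hmap] at this
    obtain ⟨b, hb, hbe⟩ := this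
    rwa [show π₁ l = b from Subtype.ext hbe.symm]
  let π : L →⋆ₐ[ℂ] gen s := π₁.codRestrict (gen s) hπ₁
  have hπ : Function.Surjective π := fun b => by
    have : incl b ∈ (gen s).map incl := ⟨b, b.2, rfl⟩
    rw [← hmap] at this
    obtain ⟨l, hl, hle⟩ := this
    exact ⟨⟨l, hl⟩, Subtype.ext (Subtype.ext hle)⟩
  let θ : L →⋆ₐ[ℂ] Central A ω :=
    (θ₀.comp L.subtype).codRestrict (Central A ω) fun l => (hθ l l.2).1
  have hker : ∀ l, π l = 0 → θ l = 0 := fun l hl => by
    have h0 : cls ω (l : ℕ →ᵇ A) = 0 :=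
      congrArg (fun b : gen s => ((b : Central A ω) : Ultrapower A ω)) hl
    have := hnorm l l.2
    rw [h0, norm_zero] at this
    exact Subtype.ext (norm_le_zero_iff.1 this)
  obtain ⟨ρ, hρ⟩ := exists_desc π hπ θ hker
  refine ⟨ρ, fun b c hc => ?_⟩
  obtain ⟨l, rfl⟩ := hπ b
  rw [hρ]
  exact Subtype.ext ((hθ l l.2).2 c hc).1

end

end Vale.P101
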