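import Mathlib

/-!
# P101: the prime dimension drop algebra `Z(2,3)`
-/

namespace Vale.P101.DD

noncomputable section

open Matrix
open scoped Kronecker

/-- `2 × 2` complex matrices. -/
abbrev M2 := Matrix (Fin 2) (Fin 2) ℂ

/-- `6 × 6` complex matrices, indexed by pairs. -/
abbrev M6 := Matrix (Fin 2 × Fin 3) (Fin 2 × Fin 3) ℂ

/-- The prime dimension drop algebra `Z(2,3)`: the continuous `M₂ ⊗ M₃`-valued functions on `[0, 1]`
which lie in `M₂ ⊗ 1` at `0` and in `1 ⊗ M₃` at `1`. -/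
def dimDrop23 : StarSubalgebra ℂ C(Set.Icc (0 : ℝ) 1, M6) where
  carrier := {f | (∃ A : M2, f 0 = A ⊗ₖ (1 : Matrix (Fin 3) (Fin 3) ℂ)) ∧
    ∃ B : Matrix (Fin 3) (Fin 3) ℂ, f 1 = (1 : M2) ⊗ₖ B}
  mul_mem' := by
    rintro f g ⟨⟨A, hA⟩, B, hB⟩ ⟨⟨A', hA'⟩, B', hB'⟩
    exact ⟨⟨A * A', by simp [hA, hA', ← Matrix.mul_kronecker_mul]⟩, B * B',
      by simp [hB, hB', ← Matrix.mul_kronecker_mul]⟩
  add_mem' := by
    rintro f g ⟨⟨A, hA⟩, B, hB⟩ ⟨⟨A', hA'⟩, B', hB'⟩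
    exact ⟨⟨A + A', by simp [hA, hA', Matrix.add_kronecker]⟩, B + B',
      by simp [hB, hB', Matrix.kronecker_add]⟩
  algebraMap_mem' c := ⟨⟨c • 1, by simp [Algebra.algebraMap_eq_smul_one, Matrix.smul_kronecker]⟩,
    c • 1, by simp [Algebra.algebraMap_eq_smul_one, Matrix.kronecker_smul]⟩
  star_mem' := by
    rintro f ⟨⟨A, hA⟩, B, hB⟩
    exact ⟨⟨Aᴴ, by simp [hA, Matrix.star_eq_conjTranspose, Matrix.conjTranspose_kronecker]⟩, Bᴴ,
      by simp [hB, Matrix.star_eq_conjTranspose, Matrix.conjTranspose_kronecker]⟩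

end

end Vale.P101.DD
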