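import Vale.Agent.P101.Basic
import Vale.Agent.P101.DimDropDef

/-!
# P101: the prime dimension drop algebra `Z(2,3)` from two relations

If `x ^ 2 = 0`, `v⋆v = 1 - (x⋆x + xx⋆)` and `xx⋆v = v` in a unital C⋆-algebra, then
`Z(2,3)` maps unitally into it.  Only existence is needed, so the functions are first composed with a
map of the interval constant near both endpoints; then everything is given by explicit frames: two
for the order zero part `x`, three (`1`, `v`, `x⋆v`) for the part below `h = 1`.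
-/

namespace Vale.P101.DD

noncomputable section

open Matrix
open scoped Kronecker


/-- The sum `∑ r k * M k l * (r l)⋆`. -/
def lam {E : Type*} [CStarAlgebra E] {n : ℕ} (r : Fin n → E) (M : Matrix (Fin n) (Fin n) E) : E :=
  ∑ k, ∑ l, r k * M k l * star (r l)

section lam

variable {E : Type*} [CStarAlgebra E] {n : ℕ} (r : Fin n → E)

theorem lam_add (M N : Matrix (Fin n) (Fin n) E) : lam r (M + N) = lam r M + lam r N := by
  simp [lam, Matrix.add_apply, mul_add, add_mul, Finset.sum_add_distrib]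

theorem lam_smul (c : ℂ) (M : Matrix (Fin n) (Fin n) E) : lam r (c • M) = c • lam r M := by
  simp [lam, Matrix.smul_apply, Finset.smul_sum]

theorem lam_star (M : Matrix (Fin n) (Fin n) E) : star (lam r M) = lam r Mᴴ := by
  rw [lam, lam, Finset.sum_comm, star_sum]
  refine Finset.sum_congr rfl fun k _ => ?_
  rw [star_sum]
  exact Finset.sum_congr rfl fun l _ => by simp [mul_assoc]

theorem lam_mul {W : E} (hr : ∀ k l, star (r k) * r l = if k = l then W else 0)
    (M N : Matrix (Fin n) (Fin n) E) (hM : ∀ k l, r k * (M k l * W) = r k * M k l) :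
    lam r M * lam r N = lam r (M * N) := by
  have h : ∀ k l l' m, r k * M k l * star (r l) * (r l' * N l' m * star (r m)) =
      if l = l' then r k * (M k l * N l m) * star (r m) else 0 := by
    intro k l l' m
    rw [show r k * M k l * star (r l) * (r l' * N l' m * star (r m)) =
      r k * (M k l * (star (r l) * r l')) * (N l' m * star (r m)) by simp only [mul_assoc], hr]
    split_ifs with e
    · subst e
      rw [hM]
      simp only [mul_assoc]
    · simp
  calc lam r M * lam r N
      = ∑ k, ∑ l, ∑ l', ∑ m, r k * M k l * star (r l) * (r l' * N l' m * star (r m)) := by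
        simp only [lam, Finset.sum_mul]
        refine Finset.sum_congr rfl fun k _ => Finset.sum_congr rfl fun l _ => ?_
        simp only [Finset.mul_sum]
    _ = ∑ k, ∑ l, ∑ m, r k * (M k l * N l m) * star (r m) := by
        refine Finset.sum_congr rfl fun k _ => Finset.sum_congr rfl fun l _ => ?_
        rw [Finset.sum_comm]
        simp [h]
    _ = lam r (M * N) := by
        simp only [lam, Matrix.mul_apply, Finset.mul_sum, Finset.sum_mul]
        exact Finset.sum_congr rfl fun k _ => Finset.sum_comm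

end lam

/-- The squeeze of the interval: `0` up to `1 / 4`, `1` from `3 / 4` on. -/
def sq01 (t : ℝ) : ℝ := max 0 (min 1 (2 * t - 1 / 2))

theorem sq01_low {t : ℝ} (h : t ≤ 1 / 4) : sq01 t = 0 := by
  rw [sq01, max_eq_left ((min_le_right _ _).trans (by linarith))]

theorem sq01_high {t : ℝ} (h : 3 / 4 ≤ t) : sq01 t = 1 := by
  rw [sq01, min_eq_left (by linarith), max_eq_right zero_le_one]

theorem sq01_mem (t : ℝ) : sq01 t ∈ Set.Icc (0 : ℝ) 1 :=
  ⟨le_max_left _ _, max_le zero_le_one (min_le_left _ _)⟩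

@[fun_prop] theorem continuous_sq01 : Continuous sq01 := by unfold sq01; fun_prop

/-- `ν = 1` up to `3 / 4`, `0` from `7 / 8` on. -/
def nu (t : ℝ) : ℝ := max 0 (min 1 (7 - 8 * t))

@[fun_prop] theorem continuous_nu : Continuous nu := by unfold nu; fun_prop

theorem nu_low {t : ℝ} (h : t ≤ 3 / 4) : nu t = 1 := by
  rw [nu, min_eq_left (by linarith), max_eq_right zero_le_one]

theorem nu_high {t : ℝ} (h : 7 / 8 ≤ t) : nu t = 0 := by
  rw [nu, max_eq_left ((min_le_right _ _).trans (by linarith))]

/-- `ν / √(1 - t)`. -/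
def th (t : ℝ) : ℝ := nu t / √(max (1 - t) (1 / 16))

@[fun_prop] theorem continuous_th : Continuous th := by
  unfold th
  exact Continuous.div (by fun_prop) (by fun_prop) fun t =>
    (Real.sqrt_pos.2 (lt_max_of_lt_right (by norm_num))).ne'

theorem th_spec (t : ℝ) : th t * (1 - t) * th t = nu t * nu t := by
  rcases le_total t (7 / 8) with h | h
  · have h1 : (0 : ℝ) < 1 - t := by linarith
    rw [th, max_eq_left (by linarith), div_mul_eq_mul_div, div_mul_div_comm,
      Real.mul_self_sqrt h1.le]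
    field_simp
  · simp [th, nu_high h]

/-- `1 / √t` from `1 / 4` on, `0` up to `1 / 8`. -/
def ps (t : ℝ) : ℝ := √(max 0 (min 1 (8 * t - 1))) / √(max t (1 / 8))

/-- `ps t / √t`. -/
def ps' (t : ℝ) : ℝ := ps t / √(max t (1 / 8))

@[fun_prop] theorem continuous_ps : Continuous ps := by
  unfold ps
  exact Continuous.div (by fun_prop) (by fun_prop) fun t =>
    (Real.sqrt_pos.2 (lt_max_of_lt_right (by norm_num))).ne'

@[fun_prop] theorem continuous_ps' : Continuous ps' := by
  unfold ps'
  exact Continuous.div (by fun_prop) (by fun_prop) fun t =>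
    (Real.sqrt_pos.2 (lt_max_of_lt_right (by norm_num))).ne'

theorem ps'_spec (t : ℝ) : t * (ps' t * ps' t) = ps t * ps t := by
  rcases le_total t (1 / 8) with h | h
  · simp [ps', ps, max_eq_left ((min_le_right (1 : ℝ) (8 * t - 1)).trans (by linarith : 8 * t - 1 ≤ 0))]
  · have h1 : 0 < t := by linarith
    rw [ps', max_eq_left h, div_mul_div_comm, Real.mul_self_sqrt h1.le]
    field_simp

theorem ps_spec {t : ℝ} (h : 1 / 4 ≤ t) : t * (ps t * ps t) = 1 := by
  have h1 : 0 < t := by linarith
  rw [ps, min_eq_left (by linarith), max_eq_right zero_le_one, max_eq_left (by linarith),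
    Real.sqrt_one, div_mul_div_comm, Real.mul_self_sqrt h1.le]
  field_simp

theorem ps_one : ps 1 = 1 := by norm_num [ps, max_def, min_def]

theorem ps'_one : ps' 1 = 1 := by norm_num [ps', ps_one, max_def]

variable {E : Type*} [CStarAlgebra E]

/-- `h = x⋆x + xx⋆`. -/
def hh (x : E) : E := star x * x + x * star x

theorem hh_sa (x : E) : IsSelfAdjoint (hh x) :=
  (IsSelfAdjoint.star_mul_self x).add (IsSelfAdjoint.mul_star_self x)

/-- Complex functions of `h`. -/
def ga (g : ℝ → ℂ) (x : E) : E := cfc (fun z : ℂ => g z.re) (hh x)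

theorem ga_mul (x : E) {g g' : ℝ → ℂ} (hg : Continuous g) (hg' : Continuous g') :
    ga g x * ga g' x = ga (fun t => g t * g' t) x :=
  (cfc_mul (fun z : ℂ => g z.re) (fun z : ℂ => g' z.re) (hh x) (by fun_prop) (by fun_prop)).symm

theorem ga_add (x : E) {g g' : ℝ → ℂ} (hg : Continuous g) (hg' : Continuous g') :
    ga (fun t => g t + g' t) x = ga g x + ga g' x :=
  cfc_add (a := hh x) (fun z : ℂ => g z.re) (fun z : ℂ => g' z.re) (by fun_prop) (by fun_prop)

theorem ga_smul (x : E) (c : ℂ) {g : ℝ → ℂ} (hg : Continuous g) :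
    ga (fun t => c * g t) x = c • ga g x :=
  cfc_smul c (fun z : ℂ => g z.re) (hh x) (by fun_prop)

theorem ga_star (x : E) (g : ℝ → ℂ) : star (ga g x) = ga (fun t => star (g t)) x :=
  (cfc_star (fun z : ℂ => g z.re) (hh x)).symm

theorem ga_const (x : E) (c : ℂ) : ga (fun _ => c) x = c • 1 := by
  rw [ga, cfc_const c (hh x) (hh_sa x).isStarNormal, Algebra.algebraMap_eq_smul_one]

theorem ga_zero (x : E) : ga (fun _ => 0) x = 0 := by rw [ga_const, zero_smul]

theorem ga_real (x : E) (f : ℝ → ℝ) : ga (fun t => (f t : ℂ)) x = cfc f (hh x) :=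
  (cfc_real_eq_complex f (hh_sa x)).symm

theorem fn_star (x : E) (f : ℝ → ℝ) : star (cfc f (hh x)) = cfc f (hh x) :=
  (cfc_predicate f (hh x)).star_eq

theorem fn_comm_ga (x : E) {f : ℝ → ℝ} (hf : Continuous f) {g : ℝ → ℂ} (hg : Continuous g) :
    Commute (cfc f (hh x)) (ga g x) := by
  rw [← ga_real, Commute, SemiconjBy, ga_mul x (by fun_prop) hg, ga_mul x hg (by fun_prop)]
  simp only [mul_comm]

section rel

variable {x v : E} (hx : x * x = 0)
include hx

theorem x_hh : Commute x (hh x) := by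
  rw [Commute, SemiconjBy, hh, mul_add, add_mul, ← mul_assoc x x, hx, zero_mul, add_zero,
    mul_assoc (star x) x x, hx, mul_zero, zero_add, mul_assoc]

theorem sx_hh : Commute (star x) (hh x) := by
  have := (x_hh hx).star_star
  rwa [(hh_sa x).star_eq] at this

theorem x_fn (f : ℝ → ℝ) : Commute x (cfc f (hh x)) := ((x_hh hx).symm.cfc_real f).symm

theorem sx_fn (f : ℝ → ℝ) : Commute (star x) (cfc f (hh x)) := ((sx_hh hx).symm.cfc_real f).symm

theorem b_fn (f : ℝ → ℝ) : Commute (star x * x) (cfc f (hh x)) :=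
  (sx_fn hx f).mul_left (x_fn hx f)

theorem x_ga (g : ℝ → ℂ) : Commute x (ga g x) := by
  refine (Commute.cfc (x_hh hx).symm ?_ _).symm
  rw [(hh_sa x).star_eq]; exact (x_hh hx).symm

theorem sx_ga (g : ℝ → ℂ) : Commute (star x) (ga g x) := by
  refine (Commute.cfc (sx_hh hx).symm ?_ _).symm
  rw [(hh_sa x).star_eq]; exact (sx_hh hx).symm

theorem b_ga (g : ℝ → ℂ) : Commute (star x * x) (ga g x) := (sx_ga hx g).mul_left (x_ga hx g)

theorem sx_sq : star x * star x = 0 := by rw [← star_mul, hx, star_zero]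

theorem b_sq : star x * x * (star x * x) = star x * x * hh x := by
  rw [hh, mul_add, ← mul_assoc (star x * x) x, mul_assoc (star x) x x, hx, mul_zero, zero_mul,
    add_zero]

theorem x_b : x * (star x * x) = x * hh x := by
  rw [hh, mul_add, ← mul_assoc x x, hx, zero_mul, add_zero]

/-- The frames `x / √h`, `x⋆x / h` of the order zero part. -/
def fr2 {E : Type*} [CStarAlgebra E] (x : E) : Fin 2 → E :=
  ![x * cfc ps (hh x), star x * x * cfc ps' (hh x)]

/-- Their common support. -/
def W2 {E : Type*} [CStarAlgebra E] (x : E) : E := star x * x * cfc (fun t => ps t * ps t) (hh x)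

theorem fr2_rel (k l : Fin 2) :
    star (fr2 x k) * fr2 x l = if k = l then W2 x else 0 := by
  fin_cases k <;> fin_cases l <;>
    simp only [fr2, W2, Fin.zero_eta, Fin.mk_one, Matrix.cons_val_zero, Matrix.cons_val_one,
      Fin.isValue, reduceIte, one_ne_zero, zero_ne_one, star_mul, fn_star, star_star]
  · rw [mul_assoc (cfc ps (hh x)), ← mul_assoc (star x), ← mul_assoc, ← (b_fn hx ps).eq, mul_assoc,
      ← cfc_mul ps ps (hh x) (by fun_prop) (by fun_prop)]
  · rw [mul_assoc (cfc ps (hh x)), ← mul_assoc (star x), ← mul_assoc (star x) (star x), sx_sq hx,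
      zero_mul, zero_mul, mul_zero]
  · rw [mul_assoc (cfc ps' (hh x)), ← mul_assoc (star x * x), mul_assoc (star x) x x, hx, mul_zero,
      zero_mul, mul_zero]
  · rw [mul_assoc (cfc ps' (hh x)), ← mul_assoc (star x * x) (star x * x), b_sq hx, ← mul_assoc,
      ← ((b_fn hx ps').mul_left ((Commute.refl (hh x)).cfc_real ps').symm).eq, mul_assoc,
      ← cfc_mul ps' ps' (hh x) (by fun_prop) (by fun_prop), mul_assoc]
    congr 1
    nth_rewrite 1 [← cfc_id' ℝ (hh x) (hh_sa x)]
    rw [← cfc_mul (fun t => t) (fun t => ps' t * ps' t) (hh x) (by fun_prop) (by fun_prop)]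
    simp only [ps'_spec]

theorem fr2_W2 (k : Fin 2) :
    fr2 x k * W2 x = fr2 x k * (hh x * cfc (fun t => ps t * ps t) (hh x)) := by
  fin_cases k <;> simp only [fr2, W2, Fin.zero_eta, Fin.mk_one, Matrix.cons_val_zero,
    Matrix.cons_val_one, Fin.isValue]
  · rw [mul_assoc, ← mul_assoc (cfc ps (hh x)), ← (b_fn hx ps).eq, mul_assoc (star x * x),
      ← mul_assoc x, x_b hx, mul_assoc x (hh x), ← mul_assoc (hh x),
      ((Commute.refl (hh x)).cfc_real ps).symm.eq]
    simp only [mul_assoc]
  · rw [mul_assoc, ← mul_assoc (cfc ps' (hh x)), ← (b_fn hx ps').eq, mul_assoc (star x * x),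
      ← mul_assoc (star x * x) (star x * x), b_sq hx, mul_assoc (star x * x) (hh x),
      ← mul_assoc (hh x), ((Commute.refl (hh x)).cfc_real ps').symm.eq]
    simp only [mul_assoc]

theorem fr2_absorb {g : ℝ → ℂ} (hg : Continuous g) (h0 : ∀ t ≤ 1 / 4, g t = 0) (k : Fin 2) :
    fr2 x k * (ga g x * W2 x) = fr2 x k * ga g x := by
  have hW : Commute (W2 x) (ga g x) :=
    (b_ga hx g).mul_left (fn_comm_ga x (by fun_prop) hg)
  rw [← hW.eq, ← mul_assoc, fr2_W2 hx, mul_assoc]
  congr 1
  nth_rewrite 1 [← cfc_id' ℝ (hh x) (hh_sa x)]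
  rw [← cfc_mul (fun t => t) (fun t => ps t * ps t) (hh x) (by fun_prop) (by fun_prop), ← ga_real,
    ga_mul x (by fun_prop) hg]
  congr 1
  funext t
  rcases le_total t (1 / 4) with h | h
  · simp [h0 t h]
  · rw [ps_spec h]; simp

end rel

/-- Entrywise function calculus. -/
def gaM (G : ℝ → M2) (x : E) : Matrix (Fin 2) (Fin 2) E :=
  fun k l => ga (fun t => G t k l) x

/-- Continuous `M2`-valued functions vanishing up to `1 / 4`. -/
def V2 (G : ℝ → M2) : Prop := Continuous G ∧ ∀ t ≤ 1 / 4, G t = 0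

/-- Continuous `M2`-valued functions constant scalar up to `1 / 4`. -/
def B2 (G : ℝ → M2) : Prop := Continuous G ∧ ∀ t ≤ 1 / 4, G t = (G 0 0 0) • (1 : M2)

theorem V2.entry {G : ℝ → M2} (h : V2 G) (k l : Fin 2) :
    Continuous (fun t => G t k l) ∧ ∀ t ≤ 1 / 4, G t k l = 0 :=
  ⟨h.1.matrix_elem k l, fun t ht => by rw [h.2 t ht]; rfl⟩

theorem B2.sub_const {G : ℝ → M2} (h : B2 G) : V2 fun t => G t - (G 0 0 0) • (1 : M2) :=
  ⟨h.1.sub continuous_const, fun t ht => sub_eq_zero.2 (h.2 t ht)⟩

theorem V2.toB2 {G : ℝ → M2} (h : V2 G) : B2 G :=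
  ⟨h.1, fun t ht => by rw [h.2 t ht, h.2 0 (by norm_num)]; simp⟩

/-- The frames `r₀ = x / √h`, `r₁ = x⋆x / h` of the order zero part. -/
def Phi (G : ℝ → M2) (x : E) : E := lam (fr2 x) (gaM G x)

/-- The unitisation of `Phi`. -/
def sig (G : ℝ → M2) (x : E) : E :=
  (G 0 0 0) • 1 + Phi (fun t => G t - (G 0 0 0) • (1 : M2)) x

theorem Phi_add (x : E) {G G' : ℝ → M2} (h : Continuous G) (h' : Continuous G') :
    Phi (fun t => G t + G' t) x = Phi G x + Phi G' x := by
  rw [Phi, Phi, Phi, ← lam_add]
  congr 1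
  funext k l
  exact ga_add x (h.matrix_elem k l) (h'.matrix_elem k l)

theorem Phi_smul (x : E) (c : ℂ) {G : ℝ → M2} (h : Continuous G) :
    Phi (fun t => c • G t) x = c • Phi G x := by
  rw [Phi, Phi, ← lam_smul]
  congr 1
  funext k l
  exact ga_smul x c (h.matrix_elem k l)

theorem Phi_star (x : E) (G : ℝ → M2) : star (Phi G x) = Phi (fun t => (G t)ᴴ) x := by
  rw [Phi, Phi, lam_star]
  congr 1
  funext k l
  simp only [Matrix.conjTranspose_apply, gaM]
  exact ga_star x _

section rel

variable {x : E} (hx : x * x = 0)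
include hx

theorem Phi_mul {G G' : ℝ → M2} (h : V2 G) (h' : Continuous G') :
    Phi G x * Phi G' x = Phi (fun t => G t * G' t) x := by
  rw [Phi, Phi, Phi]
  refine (lam_mul (fr2 x) (fr2_rel hx) (gaM G x) (gaM G' x) fun k l =>
    fr2_absorb hx (h.entry k l).1 (h.entry k l).2 k).trans ?_
  congr 1
  funext k l
  simp only [Matrix.mul_apply, gaM, Fin.sum_univ_two]
  rw [ga_mul x (h.entry k 0).1 (h'.matrix_elem 0 l), ga_mul x (h.entry k 1).1 (h'.matrix_elem 1 l)]
  exact (ga_add x (g := fun t => G t k 0 * G' t 0 l) (g' := fun t => G t k 1 * G' t 1 l)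
    ((h.entry k 0).1.mul (h'.matrix_elem 0 l)) ((h.entry k 1).1.mul (h'.matrix_elem 1 l))).symm

/-- Scalar functions vanishing near zero are reproduced. -/
theorem Phi_scalar {g : ℝ → ℂ} (hg : Continuous g) (h0 : ∀ t ≤ 1 / 4, g t = 0) :
    Phi (fun t => g t • (1 : M2)) x = ga g x := by
  have key : cfc (fun t => ps t * ps t) (hh x) * (hh x) * ga g x = ga g x := by
    nth_rewrite 2 [← cfc_id' ℝ (hh x) (hh_sa x)]
    rw [← cfc_mul (fun t => ps t * ps t) (fun t => t) (hh x) (by fun_prop) (by fun_prop), ← ga_real,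
      ga_mul x (by fun_prop) hg]
    congr 1
    funext t
    rcases le_total t (1 / 4) with h | h
    · simp [h0 t h]
    · rw [mul_comm (ps t * ps t), ps_spec h]; simp
  simp only [Phi, lam, gaM, Fin.sum_univ_two, Matrix.smul_apply, Matrix.one_apply_eq, ne_eq,
    zero_ne_one, not_false_eq_true, Matrix.one_apply_ne, one_ne_zero, smul_eq_mul, mul_one,
    mul_zero, ga_zero, zero_mul, add_zero, zero_add]
  have e0 : fr2 x 0 * ga g x * star (fr2 x 0) =
      x * star x * (cfc (fun t => ps t * ps t) (hh x) * ga g x) := by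
    simp only [fr2, Matrix.cons_val_zero, star_mul, fn_star]
    rw [cfc_mul ps ps (hh x) (by fun_prop) (by fun_prop), ← mul_assoc,
      mul_assoc x (cfc ps (hh x)), mul_assoc x, (fn_comm_ga x continuous_ps hg).eq,
      mul_assoc (ga g x), mul_assoc x, ← (((sx_ga hx g).mul_right
        ((sx_fn hx ps).mul_right (sx_fn hx ps)))).eq, ← mul_assoc,
      ((fn_comm_ga x continuous_ps hg).mul_left (fn_comm_ga x continuous_ps hg)).eq]
  have e1 : fr2 x 1 * ga g x * star (fr2 x 1) =
      star x * x * (cfc (fun t => ps t * ps t) (hh x) * ga g x) := by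
    simp only [fr2, Matrix.cons_val_one, Matrix.cons_val_fin_one, star_mul, star_star, fn_star]
    set P := cfc ps' (hh x)
    set b := star x * x
    have hc : Commute b (P * ga g x * P) := ((b_fn hx ps').mul_right (b_ga hx g)).mul_right (b_fn hx ps')
    calc b * P * ga g x * (P * b) = b * (P * ga g x * P * b) := by simp only [mul_assoc]
      _ = b * hh x * (P * ga g x * P) := by rw [← hc.eq, ← mul_assoc, b_sq hx]
      _ = b * (hh x * (P * P) * ga g x) := by
          rw [mul_assoc P, ← (fn_comm_ga x continuous_ps' hg).eq]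
          simp only [P, mul_assoc]
      _ = _ := by
          congr 2
          simp only [P]
          rw [← cfc_mul ps' ps' (hh x) (by fun_prop) (by fun_prop)]
          nth_rewrite 1 [← cfc_id' ℝ (hh x) (hh_sa x)]
          rw [← cfc_mul (fun t => t) (fun t => ps' t * ps' t) (hh x) (by fun_prop) (by fun_prop)]
          simp only [ps'_spec]
  rw [e0, e1, ← add_mul, add_comm, show star x * x + x * star x = hh x from rfl, ← mul_assoc,
    ← ((Commute.refl (hh x)).cfc_real fun t => ps t * ps t).eq, key]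

omit hx in
theorem sig_add {G G' : ℝ → M2} (h : Continuous G) (h' : Continuous G') :
    sig (fun t => G t + G' t) x = sig G x + sig G' x := by
  simp only [sig, Matrix.add_apply, add_smul]
  rw [show (fun t => G t + G' t - (G 0 0 0 • (1 : M2) + G' 0 0 0 • (1 : M2))) =
    fun t => (G t - G 0 0 0 • (1 : M2)) + (G' t - G' 0 0 0 • (1 : M2)) from
      funext fun t => by abel,
    Phi_add x (G := fun t => G t - G 0 0 0 • (1 : M2)) (G' := fun t => G' t - G' 0 0 0 • (1 : M2))
      (h.sub continuous_const) (h'.sub continuous_const)]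
  abel

theorem sig_mul {G G' : ℝ → M2} (h : B2 G) (h' : B2 G') :
    sig (fun t => G t * G' t) x = sig G x * sig G' x := by
  set c := G 0 0 0
  set d := G' 0 0 0
  have hP := h.sub_const
  have hQ := h'.sub_const
  have h00 : (G 0 * G' 0) 0 0 = c * d := by
    rw [h.2 0 (by norm_num), h'.2 0 (by norm_num)]
    simp [c, d, Matrix.mul_apply, Fin.sum_univ_two]
  simp only [sig, h00]
  rw [show (fun t => G t * G' t - (c * d) • (1 : M2)) = fun t =>
      (G t - c • (1 : M2)) * (G' t - d • (1 : M2)) +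
        (c • (G' t - d • (1 : M2)) + d • (G t - c • (1 : M2))) from funext fun t => by
    simp only [sub_mul, mul_sub, smul_mul_assoc, mul_smul_comm, one_mul, mul_one, smul_sub,
      smul_smul, mul_comm c d]
    abel,
    Phi_add x (G := fun t => (G t - c • (1 : M2)) * (G' t - d • (1 : M2)))
      (G' := fun t => c • (G' t - d • (1 : M2)) + d • (G t - c • (1 : M2)))
      (hP.1.mul hQ.1) ((hQ.1.const_smul c).add (hP.1.const_smul d)),
    Phi_add x (G := fun t => c • (G' t - d • (1 : M2))) (G' := fun t => d • (G t - c • (1 : M2)))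
      (hQ.1.const_smul c) (hP.1.const_smul d),
    Phi_smul x c (G := fun t => G' t - d • (1 : M2)) hQ.1,
    Phi_smul x d (G := fun t => G t - c • (1 : M2)) hP.1,
    ← Phi_mul hx (G := fun t => G t - c • (1 : M2)) (G' := fun t => G' t - d • (1 : M2)) hP hQ.1]
  set P0 := Phi (fun t => G t - c • (1 : M2)) x
  set Q0 := Phi (fun t => G' t - d • (1 : M2)) x
  simp only [add_mul, mul_add, smul_mul_assoc, mul_smul_comm, one_mul, mul_one, smul_add, smul_smul]
  rw [show G' 0 0 0 * G 0 0 0 = c * d from mul_comm _ _]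
  abel

theorem sig_one : sig (fun _ => (1 : M2)) x = 1 := by
  have : (fun _ : ℝ => (1 : M2) - (1 : M2) 0 0 • (1 : M2)) = fun _ => (fun _ => (0:ℂ)) 0 • (1 : M2) := by
    simp
  rw [sig, this, Phi_scalar hx continuous_const (fun _ _ => rfl), ga_zero]
  simp

theorem sig_scalar {g : ℝ → ℂ} (hg : Continuous g) (h0 : ∀ t ≤ 1 / 4, g t = g 0) :
    sig (fun t => g t • (1 : M2)) x = ga g x := by
  have e : (fun t => g t • (1 : M2) - (g 0 • (1 : M2)) 0 0 • (1 : M2)) =
      fun t => (g t - g 0) • (1 : M2) := by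
    funext t; simp [sub_smul]
  rw [sig, e, Phi_scalar hx (g := fun t => g t - g 0) (hg.sub continuous_const) fun t ht =>
    sub_eq_zero.2 (h0 t ht),
    show (g 0 • (1 : M2)) 0 0 = g 0 by simp]
  have := ga_add x (g := fun _ => g 0) (g' := fun t => g t - g 0) continuous_const
    (hg.sub continuous_const)
  simp only [add_sub_cancel, ga_const] at this
  exact this.symm

omit hx in
theorem sig_of_V2 {G : ℝ → M2} (h : V2 G) : sig G x = Phi G x := by
  simp [sig, h.2 0 (by norm_num)]

omit hx in
theorem sig_star {G : ℝ → M2} (_h : Continuous G) :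
    star (sig G x) = sig (fun t => (G t)ᴴ) x := by
  simp only [sig, star_add, star_smul, star_one, Phi_star, Matrix.conjTranspose_apply,
    Matrix.conjTranspose_sub, Matrix.conjTranspose_smul, Matrix.conjTranspose_one]

end rel

theorem sig_smul (x : E) (c : ℂ) {G : ℝ → M2} (h : Continuous G) :
    sig (fun t => c • G t) x = c • sig G x := by
  have e : (fun t => c • G t - (c • G 0) 0 0 • (1 : M2)) =
      fun t => c • (G t - G 0 0 0 • (1 : M2)) := by
    funext t; simp [smul_sub, smul_smul]
  rw [sig, sig, e, Phi_smul x c (G := fun t => G t - G 0 0 0 • (1 : M2)) (h.sub continuous_const)]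
  simp [smul_add, smul_smul]

theorem sig_zero (x : E) : sig (fun _ => (0 : M2)) x = 0 := by
  have := sig_smul x 0 (G := fun _ => (0 : M2)) continuous_const
  simpa using this

theorem B2_smul_one {g : ℝ → ℂ} (hg : Continuous g) (h0 : ∀ t ≤ 1 / 4, g t = g 0) :
    B2 fun t => g t • (1 : M2) :=
  ⟨hg.smul continuous_const, fun t ht => by simp [h0 t ht]⟩

theorem B2_zero : B2 fun _ => (0 : M2) := ⟨continuous_const, fun _ _ => by simp⟩

theorem B2.add {F F' : ℝ → M2} (h : B2 F) (h' : B2 F') : B2 fun t => F t + F' t :=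
  ⟨h.1.add h'.1, fun t ht => by dsimp only; rw [h.2 t ht, h'.2 t ht, Matrix.add_apply, add_smul]⟩

theorem B2.mul {F F' : ℝ → M2} (h : B2 F) (h' : B2 F') : B2 fun t => F t * F' t :=
  ⟨h.1.mul h'.1, fun t ht => by
    dsimp only
    rw [h.2 t ht, h'.2 t ht, h.2 0 (by norm_num), h'.2 0 (by norm_num)]
    simp [smul_smul]⟩

theorem B2.sub {F F' : ℝ → M2} (h : B2 F) (h' : B2 F') : B2 fun t => F t - F' t :=
  ⟨h.1.sub h'.1, fun t ht => by dsimp only; rw [h.2 t ht, h'.2 t ht, Matrix.sub_apply, sub_smul]⟩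

theorem B2.star' {F : ℝ → M2} (h : B2 F) : B2 fun t => (F t)ᴴ :=
  ⟨h.1.matrix_conjTranspose, fun t ht => by dsimp only; rw [h.2 t ht]; simp⟩

/-! ## The part below `h = 1` -/

abbrev M23 := Matrix (Fin 3) (Fin 3) M2

/-- All entries are constant scalar near zero. -/
def BB (N : ℝ → M23) : Prop := ∀ k l, B2 fun t => N t k l

/-- Moreover vanishing from `3 / 4` on. -/
def C3 (N : ℝ → M23) : Prop := BB N ∧ ∀ t, 3 / 4 ≤ t → N t = 0

theorem BB.mul {N N' : ℝ → M23} (h : BB N) (h' : BB N') : BB fun t => N t * N' t := fun k l => by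
  simp only [Matrix.mul_apply, Fin.sum_univ_three]
  exact (((h k 0).mul (h' 0 l)).add ((h k 1).mul (h' 1 l))).add ((h k 2).mul (h' 2 l))

theorem BB.add {N N' : ℝ → M23} (h : BB N) (h' : BB N') : BB fun t => N t + N' t :=
  fun k l => (h k l).add (h' k l)

theorem BB.sub {N N' : ℝ → M23} (h : BB N) (h' : BB N') : BB fun t => N t - N' t :=
  fun k l => (h k l).sub (h' k l)

theorem BB.star' {N : ℝ → M23} (h : BB N) : BB fun t => (N t)ᴴ := fun k l => by
  simpa [Matrix.conjTranspose_apply, Matrix.star_eq_conjTranspose] using (h l k).star'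

/-- Entrywise `sig`. -/
def sigM (N : ℝ → M23) (x : E) : Matrix (Fin 3) (Fin 3) E := fun k l => sig (fun t => N t k l) x

/-- The frames `1`, `v`, `x⋆v` below `h = 1`. -/
def fr3 (x v : E) : Fin 3 → E :=
  ![cfc nu (hh x), v * cfc th (hh x), star x * v * cfc th (hh x)]

/-- The image of the functions vanishing from `3 / 4` on. -/
def Lam (N : ℝ → M23) (x v : E) : E := lam (fr3 x v) (sigM N x)

theorem lam_left {n : ℕ} (r : Fin n → E) (T : E) (K M : Matrix (Fin n) (Fin n) E)
    (hT : ∀ l, T * r l = ∑ k, r k * K k l) : T * lam r M = lam r (K * M) := by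
  calc T * lam r M = ∑ l, ∑ m, T * r l * M l m * star (r m) := by
        simp only [lam, Finset.mul_sum, mul_assoc]
    _ = ∑ l, ∑ k, ∑ m, r k * (K k l * M l m) * star (r m) := by
        refine Finset.sum_congr rfl fun l _ => ?_
        rw [Finset.sum_comm]
        refine Finset.sum_congr rfl fun m _ => ?_
        simp only [hT, Finset.sum_mul, mul_assoc]
    _ = lam r (K * M) := by
        simp only [lam, Matrix.mul_apply, Finset.mul_sum, Finset.sum_mul]
        rw [Finset.sum_comm]
        exact Finset.sum_congr rfl fun k _ => Finset.sum_comm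

theorem Lam_add (x v : E) {N N' : ℝ → M23} (h : BB N) (h' : BB N') (hx : x * x = 0) :
    Lam (fun t => N t + N' t) x v = Lam N x v + Lam N' x v := by
  rw [Lam, Lam, Lam, ← lam_add]
  congr 1
  funext k l
  exact sig_add (h k l).1 (h' k l).1

theorem Lam_smul (x v : E) (c : ℂ) {N : ℝ → M23} (h : BB N) :
    Lam (fun t => c • N t) x v = c • Lam N x v := by
  rw [Lam, Lam, ← lam_smul]
  congr 1
  funext k l
  exact sig_smul x c (h k l).1

theorem Lam_star (x v : E) {N : ℝ → M23} (h : BB N) (hx : x * x = 0) :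
    star (Lam N x v) = Lam (fun t => (N t)ᴴ) x v := by
  rw [Lam, Lam, lam_star]
  congr 1
  funext k l
  simp only [Matrix.conjTranspose_apply, sigM]
  exact sig_star (h l k).1

theorem sigM_mul (x : E) {N N' : ℝ → M23} (h : BB N) (h' : BB N') (hx : x * x = 0) :
    sigM (fun t => N t * N' t) x = sigM N x * sigM N' x := by
  funext k l
  simp only [sigM, Matrix.mul_apply, Fin.sum_univ_three]
  rw [sig_add (G := fun t => N t k 0 * N' t 0 l + N t k 1 * N' t 1 l)
      (G' := fun t => N t k 2 * N' t 2 l) (((h k 0).mul (h' 0 l)).add ((h k 1).mul (h' 1 l))).1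
      ((h k 2).mul (h' 2 l)).1,
    sig_add (G := fun t => N t k 0 * N' t 0 l) (G' := fun t => N t k 1 * N' t 1 l)
      ((h k 0).mul (h' 0 l)).1 ((h k 1).mul (h' 1 l)).1,
    sig_mul hx (h k 0) (h' 0 l), sig_mul hx (h k 1) (h' 1 l), sig_mul hx (h k 2) (h' 2 l)]

/-- The endpoint part: `ω m` on the base block, `m` on the two others. -/
def Om (m : M2) (t : ℝ) : M23 :=
  !![(sq01 t : ℂ) • m, 0, 0; 0, m 0 0 • 1, m 0 1 • 1; 0, m 1 0 • 1, m 1 1 • 1]

theorem Om_BB (m : M2) : BB (Om m) := by
  have hc : ∀ a : ℂ, B2 fun _ => a • (1 : M2) := fun a => B2_smul_one continuous_const fun _ _ => rfl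
  have h0 : B2 fun t => (sq01 t : ℂ) • m :=
    ⟨(Complex.continuous_ofReal.comp continuous_sq01).smul continuous_const, fun t ht => by
      simp [sq01_low ht, sq01_low (show (0 : ℝ) ≤ 1 / 4 by norm_num)]⟩
  intro k l
  fin_cases k <;> fin_cases l <;> first | exact B2_zero | exact h0 | exact hc _

theorem Om_star (m : M2) (t : ℝ) : (Om m t)ᴴ = Om mᴴ t := by
  apply Matrix.ext
  intro k l
  fin_cases k <;> fin_cases l <;> simp [Om, Matrix.conjTranspose_apply,
    Matrix.star_eq_conjTranspose, -Complex.coe_smul]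

theorem Om_add (m m' : M2) (t : ℝ) : Om (m + m') t = Om m t + Om m' t := by
  apply Matrix.ext
  intro k l
  fin_cases k <;> fin_cases l <;> simp [Om, add_smul]

theorem Om_smul (c : ℂ) (m : M2) (t : ℝ) : Om (c • m) t = c • Om m t := by
  apply Matrix.ext
  intro k l
  fin_cases k <;> fin_cases l <;> simp [Om, smul_smul, mul_comm, -Complex.coe_smul]

/-- The matrix with one nonzero block. -/
def base (F : M2) : M23 := !![F, 0, 0; 0, 0, 0; 0, 0, 0]

theorem Om_mul (m m' : M2) (t : ℝ) :
    Om m t * Om m' t = Om (m * m') t + base (((sq01 t : ℂ) * sq01 t - sq01 t) • (m * m')) := by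
  apply Matrix.ext
  intro k l
  fin_cases k <;> fin_cases l <;>
    simp [Om, base, -Complex.coe_smul, Matrix.mul_apply, Fin.sum_univ_three, Fin.sum_univ_two, smul_smul, add_smul,
      sub_smul, mul_comm]

section rel

variable {x v : E} (hx : x * x = 0) (hxv : x * star x * v = v) (hv : star v * v = 1 - hh x)

section
include hx

theorem sx_x_v (hxv : x * star x * v = v) : star x * x * v = 0 := by
  rw [← hxv, ← mul_assoc, ← mul_assoc, mul_assoc (star x) x x, hx, mul_zero, zero_mul, zero_mul]

include hxv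

theorem hh_v : hh x * v = v := by rw [hh, add_mul, sx_x_v hx hxv, zero_add, hxv]

theorem hh_sxv : hh x * (star x * v) = star x * v := by
  rw [← mul_assoc, ← (sx_hh hx).eq, mul_assoc, hh_v hx hxv]

theorem fn_v {f : ℝ → ℝ} (hf : Continuous f) :
    cfc f (hh x) * v = (f 1 : ℂ) • v ∧ cfc f (hh x) * (star x * v) = (f 1 : ℂ) • (star x * v) := by
  constructor <;> rw [Complex.coe_smul] <;> refine cfc_mul_of_eigen (hh_sa x) ?_ hf <;>
    simp [hh_v hx hxv, hh_sxv hx hxv]

theorem ga_sxv {g : ℝ → ℂ} (hg : Continuous g) : ga g x * (star x * v) = g 1 • (star x * v) := by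
  have e : g = fun t => ((g t).re : ℂ) + Complex.I * ((g t).im : ℂ) := by
    funext t; rw [mul_comm]; exact (Complex.re_add_im (g t)).symm
  conv_lhs => rw [e]
  rw [ga_add x (by fun_prop) (by fun_prop), ga_smul x _ (by fun_prop), ga_real, ga_real, add_mul,
    smul_mul_assoc, (fn_v hx hxv (by fun_prop)).2, (fn_v hx hxv (by fun_prop)).2, smul_smul,
    ← add_smul]
  congr 1
  exact (congrFun e 1).symm

theorem Phi_v {G : ℝ → M2} (hG : Continuous G) :
    Phi G x * v = G 1 0 0 • v + G 1 1 0 • (star x * v) ∧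
    Phi G x * (star x * v) = G 1 0 1 • v + G 1 1 1 • (star x * v) := by
  have e1 : star (fr2 x 0) * v = star x * v := by
    simp only [fr2, Matrix.cons_val_zero, star_mul, fn_star]
    rw [mul_assoc, (fn_v hx hxv continuous_ps).2, ps_one]; simp
  have e2 : star (fr2 x 1) * v = 0 := by
    simp only [fr2, Matrix.cons_val_one, Matrix.cons_val_fin_one, star_mul, star_star, fn_star]
    rw [mul_assoc, sx_x_v hx hxv, mul_zero]
  have e3 : star (fr2 x 0) * (star x * v) = 0 := by
    simp only [fr2, Matrix.cons_val_zero, star_mul, fn_star]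
    rw [mul_assoc, ← mul_assoc (star x), sx_sq hx, zero_mul, mul_zero]
  have e4 : star (fr2 x 1) * (star x * v) = star x * v := by
    simp only [fr2, Matrix.cons_val_one, Matrix.cons_val_fin_one, star_mul, star_star, fn_star]
    rw [mul_assoc, mul_assoc (star x) x, ← mul_assoc x, hxv, (fn_v hx hxv continuous_ps').2,
      ps'_one]
    simp
  have e5 : fr2 x 0 * (star x * v) = v := by
    simp only [fr2, Matrix.cons_val_zero]
    rw [mul_assoc, (fn_v hx hxv continuous_ps).2, ps_one, Complex.ofReal_one, one_smul, ← mul_assoc,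
      hxv]
  have e6 : fr2 x 1 * (star x * v) = star x * v := by
    simp only [fr2, Matrix.cons_val_one, Matrix.cons_val_fin_one]
    rw [mul_assoc, (fn_v hx hxv continuous_ps').2, ps'_one, Complex.ofReal_one, one_smul, mul_assoc,
      ← mul_assoc x, hxv]
  have g := fun k l => ga_sxv hx hxv (hG.matrix_elem k l)
  constructor <;>
    simp only [Phi, lam, gaM, Fin.sum_univ_two, add_mul, mul_assoc, e1, e2, e3, e4, mul_zero,
      add_zero, zero_add, g, mul_smul_comm, e5, e6]

include hv

theorem fr3_rel (k l : Fin 3) :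
    star (fr3 x v k) * fr3 x v l =
      if k = l then cfc (fun t => nu t * nu t) (hh x) else 0 := by
  have n1 : cfc nu (hh x) * v = 0 := by
    rw [(fn_v hx hxv continuous_nu).1, nu_high (by norm_num)]; simp
  have n2 : cfc nu (hh x) * (star x * v) = 0 := by
    rw [(fn_v hx hxv continuous_nu).2, nu_high (by norm_num)]; simp
  have n1' : star v * cfc nu (hh x) = 0 := by simpa [fn_star] using congrArg star n1
  have n2' : star v * (x * cfc nu (hh x)) = 0 := by
    simpa [fn_star, mul_assoc] using congrArg star n2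
  have hvv : star v * (star x * v) = 0 := by
    have : star v = star v * (x * star x) := by simpa using (congrArg star hxv).symm
    rw [this, mul_assoc, mul_assoc x, ← mul_assoc (star x) (star x), sx_sq hx, zero_mul, mul_zero,
      mul_zero]
  have hvv' : star v * (x * v) = 0 := by simpa [mul_assoc] using congrArg star hvv
  have hd : cfc th (hh x) * (star v * (v * cfc th (hh x))) = cfc (fun t => nu t * nu t) (hh x) := by
    rw [← mul_assoc (star v), hv, ← cfc_const_one ℝ (hh x) (hh_sa x)]
    nth_rewrite 3 [← cfc_id' ℝ (hh x) (hh_sa x)]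
    rw [← cfc_sub (fun _ : ℝ => (1 : ℝ)) (fun t => t) (hh x) (by fun_prop) (by fun_prop),
      ← cfc_mul (fun t => 1 - t) th (hh x) (by fun_prop) (by fun_prop),
      ← cfc_mul th (fun t => (1 - t) * th t) (hh x) (by fun_prop) (by fun_prop)]
    congr 1
    funext t
    rw [← mul_assoc, th_spec]
  fin_cases k <;> fin_cases l <;>
    simp only [fr3, Fin.zero_eta, Fin.mk_one, Fin.reduceFinMk, Matrix.cons_val_zero,
      Matrix.cons_val_one,  Matrix.cons_val, Fin.isValue, reduceIte,
      Fin.reduceEq, zero_ne_one, one_ne_zero, star_mul, star_star, fn_star, mul_assoc]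
  · exact (cfc_mul nu nu (hh x) (by fun_prop) (by fun_prop)).symm
  · rw [← mul_assoc, n1, zero_mul]
  · rw [← mul_assoc (star x), ← mul_assoc, n2, zero_mul]
  · rw [n1', mul_zero]
  · exact hd
  · rw [← mul_assoc (star x), ← mul_assoc (star v), hvv, zero_mul, mul_zero]
  · rw [n2', mul_zero]
  · rw [← mul_assoc x, ← mul_assoc (star v), hvv', zero_mul, mul_zero]
  · rw [← mul_assoc x (star x), ← mul_assoc (x * star x), hxv, hd]

end

section
include hx hxv hv

theorem Lam_mul {N N' : ℝ → M23} (h : C3 N) (h' : BB N') :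
    Lam N x v * Lam N' x v = Lam (fun t => N t * N' t) x v := by
  rw [Lam, Lam, Lam, sigM_mul x h.1 h' hx]
  refine lam_mul _ (fr3_rel hx hxv hv) _ _ fun k l => ?_
  congr 1
  rw [← ga_real, ← sig_scalar hx (g := fun t => ((nu t * nu t : ℝ) : ℂ)) (by fun_prop) fun t ht => by
    simp [nu_low (by linarith : t ≤ 3 / 4), nu_low (show (0 : ℝ) ≤ 3 / 4 by norm_num)],
    sigM, ← sig_mul hx (h.1 k l) (B2_smul_one (by fun_prop) fun t ht => by
      simp [nu_low (by linarith : t ≤ 3 / 4), nu_low (show (0 : ℝ) ≤ 3 / 4 by norm_num)])]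
  congr 1
  funext t
  rcases le_total t (3 / 4) with e | e
  · simp [nu_low e]
  · simp [h.2 t e]

theorem Om_left (m : M2) {N : ℝ → M23} (h : BB N) :
    Phi (fun t => (sq01 t : ℂ) • m) x * Lam N x v = Lam (fun t => Om m t * N t) x v := by
  have hV : V2 fun t => (sq01 t : ℂ) • m :=
    ⟨(Complex.continuous_ofReal.comp continuous_sq01).smul continuous_const, fun t ht => by
      simp [sq01_low ht]⟩
  rw [Lam, Lam, sigM_mul x (Om_BB m) h hx]
  refine lam_left _ _ _ _ fun l => ?_
  obtain ⟨p1, p2⟩ := Phi_v hx hxv hV.1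
  have hs : ∀ a : ℂ, sig (fun _ => a • (1 : M2)) x = a • 1 := fun a => by
    rw [sig_scalar hx (g := fun _ => a) continuous_const fun _ _ => rfl, ga_const]
  simp only [Fin.sum_univ_three, sigM]
  fin_cases l <;>
    simp only [fr3, Om, Fin.zero_eta, Fin.mk_one, Fin.reduceFinMk, Matrix.of_apply,
      Matrix.cons_val', Matrix.cons_val_zero, Matrix.cons_val_one, Matrix.cons_val, Fin.isValue, Matrix.cons_val_fin_one, sig_zero, hs, mul_zero, add_zero,
      zero_add, mul_smul_comm, mul_one]
  · have hn : cfc nu (hh x) = sig (fun t => (nu t : ℂ) • (1 : M2)) x := by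
      rw [sig_scalar hx (g := fun t => (nu t : ℂ)) (by fun_prop) fun t ht => by
        simp [nu_low (by linarith : t ≤ 3 / 4), nu_low (show (0 : ℝ) ≤ 3 / 4 by norm_num)], ga_real]
    have hnB : B2 fun t => (nu t : ℂ) • (1 : M2) := B2_smul_one (by fun_prop) fun t ht => by
      simp [nu_low (by linarith : t ≤ 3 / 4), nu_low (show (0 : ℝ) ≤ 3 / 4 by norm_num)]
    rw [hn, ← sig_of_V2 hV, ← sig_mul hx hV.toB2 hnB, ← sig_mul hx hnB hV.toB2]
    congr 1
    funext t
    simp only [smul_mul_assoc, mul_smul_comm, one_mul, mul_one]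
    exact smul_comm _ _ _
  · rw [← mul_assoc, p1]
    simp [sq01_high (show (3 : ℝ) / 4 ≤ 1 by norm_num), add_mul]
  · rw [← mul_assoc, p2]
    simp [sq01_high (show (3 : ℝ) / 4 ≤ 1 by norm_num), add_mul, mul_assoc]

theorem Om_right (m : M2) {N : ℝ → M23} (h : BB N) :
    Lam N x v * Phi (fun t => (sq01 t : ℂ) • m) x = Lam (fun t => N t * Om m t) x v := by
  apply star_injective
  rw [star_mul, Phi_star, Lam_star x v h hx, Lam_star x v (h.mul (Om_BB m)) hx]
  simp only [Matrix.conjTranspose_smul, Complex.star_def, Complex.conj_ofReal,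
    Matrix.conjTranspose_mul, Om_star]
  exact Om_left hx hxv hv mᴴ h.star'

theorem Lam_base {F : ℝ → M2} (h : B2 F) (h1 : ∀ t, 3 / 4 ≤ t → F t = 0) :
    Lam (fun t => base (F t)) x v = sig F x := by
  simp only [Lam, lam, sigM, Fin.sum_univ_three, base, fr3, Matrix.of_apply, Matrix.cons_val',
    Matrix.cons_val_zero, Matrix.cons_val_one,  Matrix.cons_val, Fin.isValue,
    Matrix.cons_val_fin_one, sig_zero, mul_zero, zero_mul, add_zero, fn_star]
  have hn : cfc nu (hh x) = sig (fun t => (nu t : ℂ) • (1 : M2)) x := by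
    rw [sig_scalar hx (g := fun t => (nu t : ℂ)) (by fun_prop) fun t ht => by
      simp [nu_low (by linarith : t ≤ 3 / 4), nu_low (show (0 : ℝ) ≤ 3 / 4 by norm_num)], ga_real]
  have hnB : B2 fun t => (nu t : ℂ) • (1 : M2) := B2_smul_one (by fun_prop) fun t ht => by
    simp [nu_low (by linarith : t ≤ 3 / 4), nu_low (show (0 : ℝ) ≤ 3 / 4 by norm_num)]
  rw [hn, ← sig_mul hx hnB h, ← sig_mul hx (hnB.mul h) hnB]
  congr 1
  funext t
  rcases le_total t (3 / 4) with e | e
  · simp [nu_low e]
  · simp [h1 t e]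

end
end rel

/-- The model of `Z(2,3)` with both ends collapsed. -/
def A3 (G : ℝ → M23) : Prop := BB G ∧ ∀ t, 3 / 4 ≤ t → G t = Om (G 1 0 0) t

/-- The homomorphism on the collapsed model. -/
def piHom (G : ℝ → M23) (x v : E) : E :=
  Phi (fun t => (sq01 t : ℂ) • G 1 0 0) x + Lam (fun t => G t - Om (G 1 0 0) t) x v

section rel

variable {x v : E} (hx : x * x = 0) (hxv : x * star x * v = v) (hv : star v * v = 1 - hh x)
include hx

theorem piHom_add {G G' : ℝ → M23} (h : A3 G) (h' : A3 G') :
    piHom (fun t => G t + G' t) x v = piHom G x v + piHom G' x v := by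
  simp only [piHom, Matrix.add_apply, smul_add, Om_add]
  rw [Phi_add x (G := fun t => (sq01 t : ℂ) • G 1 0 0) (G' := fun t => (sq01 t : ℂ) • G' 1 0 0)
      (by fun_prop) (by fun_prop),
    show (fun t => G t + G' t - (Om (G 1 0 0) t + Om (G' 1 0 0) t)) =
      fun t => (G t - Om (G 1 0 0) t) + (G' t - Om (G' 1 0 0) t) from funext fun t => by abel,
    Lam_add x v (h.1.sub (Om_BB _)) (h'.1.sub (Om_BB _)) hx]
  abel

theorem piHom_smul (c : ℂ) {G : ℝ → M23} (h : A3 G) :
    piHom (fun t => c • G t) x v = c • piHom G x v := by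
  simp only [piHom, Matrix.smul_apply, Om_smul, ← smul_sub, smul_comm _ c]
  rw [Phi_smul x c (G := fun t => (sq01 t : ℂ) • G 1 0 0) (by fun_prop),
    Lam_smul x v c (h.1.sub (Om_BB _)), smul_add]

theorem piHom_star {G : ℝ → M23} (h : A3 G) :
    star (piHom G x v) = piHom (fun t => (G t)ᴴ) x v := by
  simp only [piHom, star_add, Phi_star, Lam_star x v (h.1.sub (Om_BB _)) hx,
    Matrix.conjTranspose_smul, Complex.star_def, Complex.conj_ofReal, Matrix.conjTranspose_sub,
    Om_star, Matrix.conjTranspose_apply, Matrix.star_eq_conjTranspose]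

include hxv hv

theorem piHom_one : piHom (fun _ => (1 : M23)) x v = 1 := by
  have e : (fun t => (1 : M23) - Om 1 t) = fun t => base ((1 - (sq01 t : ℂ)) • (1 : M2)) := by
    funext t
    apply Matrix.ext
    intro k l
    fin_cases k <;> fin_cases l <;> simp [Om, base, sub_smul]
  simp only [piHom, Matrix.one_apply_eq, e]
  have h0 : ∀ t : ℝ, t ≤ 1 / 4 → (1 : ℂ) - (sq01 t : ℂ) = 1 - (sq01 0 : ℂ) := fun t ht => by
    simp [sq01_low ht, sq01_low (show (0 : ℝ) ≤ 1 / 4 by norm_num)]
  rw [Lam_base hx hxv hv (F := fun t => (1 - (sq01 t : ℂ)) • (1 : M2))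
      (B2_smul_one (by fun_prop) h0) fun t ht => by simp [sq01_high ht],
    sig_scalar hx (g := fun t => 1 - (sq01 t : ℂ)) (by fun_prop) h0,
    Phi_scalar hx (g := fun t => (sq01 t : ℂ)) (by fun_prop) fun t ht => by simp [sq01_low ht],
    ← ga_add x (by fun_prop) (by fun_prop)]
  simp [ga_const]

theorem piHom_mul {G G' : ℝ → M23} (h : A3 G) (h' : A3 G') :
    piHom (fun t => G t * G' t) x v = piHom G x v * piHom G' x v := by
  set m := G 1 0 0 with hm
  set m' := G' 1 0 0 with hm'
  have hmm : (G 1 * G' 1) 0 0 = m * m' := by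
    rw [h.2 1 (by norm_num), h'.2 1 (by norm_num), ← hm, ← hm']
    simp [Matrix.mul_apply, Fin.sum_univ_three, Om, sq01_high (show (3 : ℝ) / 4 ≤ 1 by norm_num)]
  let D : ℝ → M23 := fun t => G t - Om m t
  let D' : ℝ → M23 := fun t => G' t - Om m' t
  have hD : C3 D := ⟨h.1.sub (Om_BB _), fun t ht => sub_eq_zero.2 (h.2 t ht)⟩
  have hD' : BB D' := h'.1.sub (Om_BB _)
  let F : ℝ → M2 := fun t => ((sq01 t : ℂ) * sq01 t - sq01 t) • (m * m')
  have hF : V2 F := ⟨by fun_prop, fun t ht => by simp [F, sq01_low ht]⟩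
  have hF1 : ∀ t, 3 / 4 ≤ t → F t = 0 := fun t ht => by simp [F, sq01_high ht]
  have hbF : BB fun t => base (F t) := by
    intro k l
    fin_cases k <;> fin_cases l <;> first | exact B2_zero | exact hF.toB2
  have e : (fun t => G t * G' t - Om (m * m') t) =
      fun t => base (F t) + (Om m t * D' t + (D t * Om m' t + D t * D' t)) := by
    funext t
    have := Om_mul m m' t
    simp only [D, D', sub_mul, mul_sub, this, F]
    abel
  have hP : Phi (fun t => (sq01 t : ℂ) • m) x * Phi (fun t => (sq01 t : ℂ) • m') x =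
      Phi (fun t => (sq01 t : ℂ) • (m * m')) x + sig F x := by
    rw [Phi_mul hx ⟨by fun_prop, fun t ht => by simp [sq01_low ht]⟩ (by fun_prop),
      sig_of_V2 hF, ← Phi_add x (G := fun t => (sq01 t : ℂ) • (m * m')) (G' := F) (by fun_prop)
        hF.1]
    congr 1
    funext t
    simp [F, smul_smul, sub_smul, -Complex.coe_smul]
  simp only [piHom, hmm, ← hm, ← hm', e]
  rw [Lam_add x v hbF (((Om_BB m).mul hD').add ((hD.1.mul (Om_BB m')).add (hD.1.mul hD'))) hx,
    Lam_add x v ((Om_BB m).mul hD') ((hD.1.mul (Om_BB m')).add (hD.1.mul hD')) hx,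
    Lam_add x v (hD.1.mul (Om_BB m')) (hD.1.mul hD') hx, Lam_base hx hxv hv hF.toB2 hF1,
    ← Om_left hx hxv hv m hD', ← Om_right hx hxv hv m' hD.1, ← Lam_mul hx hxv hv hD hD',
    ← add_assoc, ← hP]
  simp only [add_mul, mul_add, D, D']
  abel

end rel

/-! ## The dimension drop algebra -/

/-- Reading a `6 × 6` matrix as `3 × 3` blocks. -/
def blk (X : M6) : M23 := fun k l i j => X (i, k) (j, l)

theorem blk_mul (X Y : M6) : blk (X * Y) = blk X * blk Y := by
  apply Matrix.ext
  intro k l
  apply Matrix.ext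
  intro i j
  simp only [blk, Matrix.mul_apply, Matrix.sum_apply, Fintype.sum_prod_type]
  exact Finset.sum_comm

theorem blk_one : blk 1 = 1 := by
  apply Matrix.ext
  intro k l
  apply Matrix.ext
  intro i j
  fin_cases k <;> fin_cases l <;> simp [blk, Matrix.one_apply]

theorem blk_star (X : M6) : blk Xᴴ = (blk X)ᴴ := by
  apply Matrix.ext
  intro k l
  apply Matrix.ext
  intro i j
  simp [blk, Matrix.conjTranspose_apply]

/-- The swap of two basis vectors, as a projection. -/
def swapQ : M6 := (1 / 2 : ℂ) •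
  (Matrix.single (1, 1) (1, 1) 1 + Matrix.single (0, 2) (0, 2) 1 -
    Matrix.single (1, 1) (0, 2) 1 - Matrix.single (0, 2) (1, 1) 1)

theorem swapQ_sq : swapQ * swapQ = swapQ := by
  simp only [swapQ, smul_mul_assoc, mul_smul_comm, add_mul, mul_add, sub_mul, mul_sub]
  simp [Matrix.single_mul_single_same, Matrix.single_mul_single_of_ne]
  module

theorem swapQ_star : swapQᴴ = swapQ := by
  simp only [swapQ, Matrix.conjTranspose_smul, Matrix.conjTranspose_sub, Matrix.conjTranspose_add,
    Matrix.conjTranspose_single, star_one]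
  rw [show star (1 / 2 : ℂ) = 1 / 2 by simp]
  congr 1
  abel

/-- A path of unitaries from `1` to the swap, constant near both ends. -/
def path (t : ℝ) : M6 := 1 + (Complex.exp (Real.pi * sq01 t * Complex.I) - 1) • swapQ

theorem continuous_path : Continuous path := by unfold path; fun_prop

theorem path_unitary (t : ℝ) : (path t)ᴴ * path t = 1 ∧ path t * (path t)ᴴ = 1 := by
  set z := Complex.exp (Real.pi * sq01 t * Complex.I)
  have hz : (starRingEnd ℂ) z * z = 1 := by
    have hn : ‖z‖ = 1 := by simp [z, Complex.norm_exp]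
    rw [← Complex.normSq_eq_conj_mul_self, Complex.normSq_eq_norm_sq, hn]
    simp
  have hs : (path t)ᴴ = 1 + ((starRingEnd ℂ) z - 1) • swapQ := by
    simp [path, z, swapQ_star]
  have key : ∀ a b : ℂ, a + b + a * b = 0 → (1 + a • swapQ) * (1 + b • swapQ) = 1 := fun a b h => by
    rw [add_mul, mul_add, mul_add, one_mul, mul_one, one_mul, smul_mul_smul_comm, swapQ_sq,
      add_assoc, ← add_smul, ← add_smul, show b + (a + a * b) = 0 by rw [← h]; ring, zero_smul,
      add_zero]
  rw [hs]
  exact ⟨key _ _ (by linear_combination hz), key _ _ (by linear_combination hz)⟩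

/-- The collapsed and conjugated function. -/
def collapse (f : C(Set.Icc (0 : ℝ) 1, M6)) (t : ℝ) : M23 :=
  blk (path t * f ⟨1 - sq01 t, by constructor <;> linarith [(sq01_mem t).1, (sq01_mem t).2]⟩ *
    (path t)ᴴ)

theorem swap_matrix {n : Type} [Fintype n] [DecidableEq n] (p q : n) (h : p ≠ q) :
    (1 : Matrix n n ℂ) + ((-1 : ℂ) - 1) • ((1 / 2 : ℂ) •
      (Matrix.single p p 1 + Matrix.single q q 1 - Matrix.single p q 1 - Matrix.single q p 1)) =
    (Equiv.swap p q).toPEquiv.toMatrix := by
  apply Matrix.ext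
  intro a b
  simp only [PEquiv.toMatrix_apply, Equiv.toPEquiv_apply, Option.mem_def, Option.some.injEq,
    Matrix.add_apply, Matrix.sub_apply, Matrix.smul_apply, Matrix.single_apply, Matrix.one_apply,
    smul_eq_mul, Equiv.swap_apply_def]
  rcases eq_or_ne a p with ha | ha <;> rcases eq_or_ne a q with ha' | ha' <;>
    rcases eq_or_ne b p with hb | hb <;> rcases eq_or_ne b q with hb' | hb' <;>
    subst_vars <;> simp_all [eq_comm] <;> norm_num

theorem swap_tbl : ∀ (k : Fin 3) (i : Fin 2),
    Equiv.swap ((1 : Fin 2), (1 : Fin 3)) (0, 2) (i, k) =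
      ![![((0 : Fin 2), (0 : Fin 3)), (1, 0)], ![(0, 1), (0, 2)], ![(1, 1), (1, 2)]] k i := by decide

theorem swap_blocks (A : M2) (k l : Fin 3) (i j : Fin 2) :
    ((A ⊗ₖ (1 : Matrix (Fin 3) (Fin 3) ℂ)).submatrix (Equiv.swap ((1 : Fin 2), (1 : Fin 3)) (0, 2))
      (Equiv.swap ((1 : Fin 2), (1 : Fin 3)) (0, 2))) (i, k) (j, l) =
    (!![A, 0, 0; 0, A 0 0 • 1, A 0 1 • 1; 0, A 1 0 • 1, A 1 1 • 1] : M23) k l i j := by
  rw [Matrix.submatrix_apply, swap_tbl, swap_tbl, Matrix.kroneckerMap_apply]
  fin_cases k <;> fin_cases l <;>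
    simp only [Fin.zero_eta, Fin.mk_one, Fin.reduceFinMk, Matrix.cons_val_zero, Matrix.cons_val_one,
      Matrix.cons_val, Matrix.cons_val', Matrix.cons_val_fin_one, Matrix.of_apply, Matrix.zero_apply,
      Matrix.smul_apply, Matrix.one_apply, smul_eq_mul, Fin.isValue] <;>
    revert i j <;> simp [Fin.forall_fin_two]

theorem path_high {t : ℝ} (ht : 3 / 4 ≤ t) :
    path t = (Equiv.swap ((1 : Fin 2), (1 : Fin 3)) (0, 2)).toPEquiv.toMatrix := by
  rw [path, sq01_high ht, swapQ, Complex.ofReal_one, mul_one, Complex.exp_pi_mul_I]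
  exact swap_matrix _ _ (by decide)

theorem collapse_A3 {f : C(Set.Icc (0 : ℝ) 1, M6)} (hf : f ∈ dimDrop23) : A3 (collapse f) := by
  obtain ⟨⟨A, hA⟩, B, hB⟩ := hf
  have hc : Continuous fun t => path t *
      f ⟨1 - sq01 t, by constructor <;> linarith [(sq01_mem t).1, (sq01_mem t).2]⟩ * (path t)ᴴ :=
    (continuous_path.mul (f.continuous.comp (Continuous.subtype_mk (by fun_prop) _))).mul
      continuous_path.matrix_conjTranspose
  have hlow : ∀ t ≤ 1 / 4, ∀ k l, collapse f t k l = B k l • (1 : M2) := fun t ht k l => by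
    have h1 : collapse f t = blk ((1 : M2) ⊗ₖ B) := by
      rw [collapse, show path t = 1 by simp [path, sq01_low ht], Matrix.conjTranspose_one, one_mul,
        mul_one, ← hB]
      congr 2
      apply Subtype.ext
      simp [sq01_low ht]
    rw [h1]
    apply Matrix.ext
    intro i j
    simp [blk, Matrix.kroneckerMap_apply, mul_comm]
  have hhigh : ∀ t, 3 / 4 ≤ t → collapse f t = Om A t := fun t ht => by
    set σ := Equiv.swap ((1 : Fin 2), (1 : Fin 3)) (0, 2)
    have hP : (σ.toPEquiv.toMatrix : M6)ᴴ = σ.toPEquiv.toMatrix := by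
      apply Matrix.ext
      intro p q
      simp only [Matrix.conjTranspose_apply, PEquiv.toMatrix_apply, Equiv.toPEquiv_apply,
        Option.mem_def, Option.some.injEq]
      rw [apply_ite star, star_one, star_zero]
      refine if_congr ⟨fun h => ?_, fun h => ?_⟩ rfl rfl <;>
        rw [← h, Equiv.swap_apply_self]
    have h1 : collapse f t = blk ((A ⊗ₖ (1 : Matrix (Fin 3) (Fin 3) ℂ)).submatrix σ σ) := by
      rw [collapse, path_high ht, hP, PEquiv.toMatrix_toPEquiv_mul, PEquiv.mul_toMatrix_toPEquiv,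
        Matrix.submatrix_submatrix, Function.comp_id, Function.id_comp, Equiv.symm_swap, ← hA]
      congr 3
      apply Subtype.ext
      simp [sq01_high ht]
    rw [h1]
    apply Matrix.ext
    intro k l
    apply Matrix.ext
    intro i j
    have hO : Om A t = !![A, 0, 0; 0, A 0 0 • 1, A 0 1 • 1; 0, A 1 0 • 1, A 1 1 • 1] := by
      simp [Om, sq01_high ht]
    rw [hO]
    exact swap_blocks A k l i j
  refine ⟨fun k l => ⟨continuous_matrix fun i j => (hc.matrix_elem _ _ : _), fun t ht => ?_⟩,
    fun t ht => ?_⟩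
  · show collapse f t k l = collapse f 0 k l 0 0 • (1 : M2)
    rw [hlow t ht, hlow 0 (by norm_num)]
    simp
  · rw [hhigh t ht, hhigh 1 (by norm_num)]
    simp [Om, sq01_high (show (3 : ℝ) / 4 ≤ 1 by norm_num)]

/-- `x ^ 2 = 0`, `v⋆v = 1 - (x⋆x + xx⋆)` and `xx⋆v = v` give a unital homomorphism from `Z(2,3)`. -/
theorem exists_dimDrop_hom (x v : E) (hx : x * x = 0)
    (hv : star v * v = 1 - (star x * x + x * star x)) (hxv : x * star x * v = v) :
    Nonempty (dimDrop23 →⋆ₐ[ℂ] E) := by
  have hA : ∀ f : dimDrop23, A3 (collapse f.1) := fun f => collapse_A3 f.2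
  refine ⟨{ toFun := fun f => piHom (collapse f.1) x v, map_one' := ?_, map_mul' := fun f g => ?_,
            map_zero' := ?_, map_add' := fun f g => ?_, commutes' := fun c => ?_,
            map_star' := fun f => ?_ }⟩
  · refine Eq.trans ?_ (piHom_one hx hxv hv)
    congr 1
    funext t
    simp [collapse, (path_unitary t).2, blk_one]
  · show piHom (collapse (f.1 * g.1)) x v = _
    rw [← piHom_mul hx hxv hv (hA f) (hA g)]
    congr 1
    funext t
    simp only [collapse, ContinuousMap.mul_apply, ← blk_mul]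
    congr 1
    simp only [mul_assoc]
    rw [← mul_assoc (path t)ᴴ (path t), (path_unitary t).1, one_mul]
  · have := piHom_smul (v := v) hx 0 (hA 0)
    simp only [zero_smul] at this
    refine Eq.trans ?_ this
    congr 1
    funext t
    simp only [collapse, ZeroMemClass.coe_zero, ContinuousMap.zero_apply, mul_zero, zero_mul]
    rfl
  · show piHom (collapse (f.1 + g.1)) x v = _
    rw [← piHom_add hx (hA f) (hA g)]
    congr 1
    funext t
    simp only [collapse, ContinuousMap.add_apply, mul_add, add_mul]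
    rfl
  · have h1 : A3 fun _ => (1 : M23) :=
      ⟨fun k l => by
          by_cases e : k = l
          · subst e; simpa using B2_smul_one (g := fun _ => (1 : ℂ)) continuous_const fun _ _ => rfl
          · simpa [Matrix.one_apply_ne e] using B2_zero,
        fun t ht => by
          apply Matrix.ext
          intro k l
          fin_cases k <;> fin_cases l <;> simp [Om, sq01_high ht]⟩
    calc piHom (collapse (algebraMap ℂ dimDrop23 c).1) x v
        = piHom (fun t => c • (1 : M23)) x v := by
          congr 1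
          funext t
          have e : (algebraMap ℂ dimDrop23 c).1 = c • (1 : C(Set.Icc (0 : ℝ) 1, M6)) := by
            simp [Algebra.algebraMap_eq_smul_one]
          rw [collapse, e, ContinuousMap.smul_apply, ContinuousMap.one_apply, mul_smul_comm,
            smul_mul_assoc, mul_one, (path_unitary t).2, ← blk_one]
          rfl
      _ = c • piHom (fun _ => (1 : M23)) x v := piHom_smul hx c h1
      _ = _ := by rw [piHom_one hx hxv hv, Algebra.algebraMap_eq_smul_one]
  · show piHom (collapse (star f.1)) x v = _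
    rw [piHom_star hx (hA f)]
    congr 1
    funext t
    simp [collapse, ← blk_star, Matrix.conjTranspose_mul, Matrix.star_eq_conjTranspose, mul_assoc]

end

end Vale.P101.DD
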