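import Vale.Agent.P101.Commutator
import Vale.Agent.P101.Quot

/-!
# P101: algebras without characters are generated by their commutators
-/

namespace Vale.P101

variable {E : Type*} [CStarAlgebra E]

theorem comm_mem_twoSided (x y : E) : x * y - y * x ∈ twoSided (commSet E) := by
  have key : ∀ a b : E, IsSelfAdjoint a → IsSelfAdjoint b → a * b - b * a ∈ twoSided (commSet E) :=
    fun a b ha hb => subset_twoSided ⟨a, b, ha, hb, rfl⟩
  set a := (realPart x : E)
  set b := (imaginaryPart x : E)
  set c := (realPart y : E)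
  set d := (imaginaryPart y : E)
  have ha : IsSelfAdjoint a := (realPart x).2
  have hb : IsSelfAdjoint b := (imaginaryPart x).2
  have hc : IsSelfAdjoint c := (realPart y).2
  have hd : IsSelfAdjoint d := (imaginaryPart y).2
  have e : x * y - y * x = (a * c - c * a) + Complex.I • (a * d - d * a) +
      Complex.I • (b * c - c * b) + (Complex.I * Complex.I) • (b * d - d * b) := by
    conv_lhs => rw [← realPart_add_I_smul_imaginaryPart x, ← realPart_add_I_smul_imaginaryPart y]
    simp only [add_mul, mul_add, smul_mul_assoc, mul_smul_comm, smul_add, smul_sub, smul_smul, a, b,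
      c, d]
    abel
  rw [e]
  exact add_mem (add_mem (add_mem (key a c ha hc) (Submodule.smul_mem _ _ (key a d ha hd)))
    (Submodule.smul_mem _ _ (key b c hb hc))) (Submodule.smul_mem _ _ (key b d hb hd))

/-- Without characters, the commutators generate. -/
theorem full_commSet (h : IsEmpty (E →⋆ₐ[ℂ] ℂ)) : Full (commSet E) := by
  rcases subsingleton_or_nontrivial E with _ | _
  · rw [Full, Subsingleton.elim (1 : E) 0]
    exact Submodule.zero_mem _
  by_contra hF
  let J : Ideal E :=
    { (twoSided (commSet E)).toAddSubmonoid with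
      smul_mem' := fun a _ hz => left_mem_twoSided hz a }
  have hJ : J ≠ ⊤ := fun hJ => hF ((Ideal.eq_top_iff_one J).1 hJ)
  obtain ⟨M, hM, hJM⟩ := J.exists_le_maximal hJ
  have hcomm : ∀ x y : E, x * y - y * x ∈ M := fun x y => hJM (comm_mem_twoSided x y)
  have : M.IsTwoSided := ⟨fun {a} b ha => by
    simpa using add_mem (M.mul_mem_left b ha) (hcomm a b)⟩
  have hclosed : IsClosed (M : Set E) := Ideal.IsMaximal.isClosed
  have : Nontrivial (E ⧸ M) := Ideal.Quotient.nontrivial_iff.2 hM.ne_top
  have hA : ∀ {a : E ⧸ M}, IsUnit a ↔ a ≠ 0 := by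
    intro a
    refine ⟨fun ha => ha.ne_zero, fun ha => ?_⟩
    obtain ⟨r, rfl⟩ := Ideal.Quotient.mk_surjective a
    have hr : r ∉ M := fun hr => ha (Ideal.Quotient.eq_zero_iff_mem.2 hr)
    have htop := hM.1.2 (M ⊔ Ideal.span {r}) (lt_of_le_of_ne le_sup_left fun he =>
      hr (he ▸ Ideal.mem_sup_right (Ideal.mem_span_singleton_self r)))
    obtain ⟨m, hm, z, hz, hmz⟩ := Submodule.mem_sup.1 ((Ideal.eq_top_iff_one _).1 htop)
    obtain ⟨w, rfl⟩ := Ideal.mem_span_singleton'.1 hz
    have h1 : Ideal.Quotient.mk M w * Ideal.Quotient.mk M r = 1 := by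
      rw [← map_mul, ← map_one (Ideal.Quotient.mk M), ← hmz, map_add,
        Ideal.Quotient.eq_zero_iff_mem.2 hm, zero_add]
    have h2 : Ideal.Quotient.mk M r * Ideal.Quotient.mk M w = 1 := by
      rw [← h1, ← map_mul, ← map_mul, Ideal.Quotient.eq]
      exact hcomm r w
    exact ⟨⟨_, _, h2, h1⟩, rfl⟩
  let φ : E →ₐ[ℂ] ℂ :=
    (NormedRing.algEquivComplexOfComplete hA).symm.toAlgHom.comp (Ideal.Quotient.mkₐ ℂ M)
  have : StarHomClass (E →ₐ[ℂ] ℂ) E ℂ := inferInstance
  exact h.false { φ with map_star' := fun a => map_star φ a }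

end Vale.P101
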