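import Vale.Agent.P101.Glue
import Vale.Agent.P101.Central
import Vale.Agent.P101.NoChar
import Vale.Agent.P101.DimDrop

/-!
# P101: a central sequence algebra without characters receives `Z(2,3)` unitally
-/

namespace Vale.P101

/-- The central sequence algebra `F_ω(A) = A_ω ∩ A'` as a type. -/
def FOmega (A : Type*) [CStarAlgebra A] (ω : Ultrafilter ℕ) : Type _ := Central A ω

noncomputable instance (A : Type*) [CStarAlgebra A] (ω : Ultrafilter ℕ) :
    CStarAlgebra (FOmega A ω) := StarSubalgebra.cstarAlgebra (Central A ω)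

/-- Every star homomorphism to `ℂ` vanishes. -/
def NoCharacters (E : Type*) [CStarAlgebra E] : Prop := ∀ χ : E →⋆ₙₐ[ℂ] ℂ, χ = 0

/-- There is a unital star homomorphism from `Z(2,3)`. -/
def HasDimDropHom (E : Type*) [CStarAlgebra E] : Prop := Nonempty (DD.dimDrop23 →⋆ₐ[ℂ] E)

theorem hom_of_full {E : Type*} [CStarAlgebra E] (hE : CopyProp E) (h : Full (commSet E)) :
    Nonempty (DD.dimDrop23 →⋆ₐ[ℂ] E) := by
  obtain ⟨x, v, hx, hv, hxv⟩ := exists_relations hE h
  exact DD.exists_dimDrop_hom x v hx hv hxv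

theorem fOmega_dimDrop {A : Type*} [CStarAlgebra A] [TopologicalSpace.SeparableSpace A]
    {ω : Ultrafilter ℕ} (hω : (ω : Filter ℕ) ≤ Filter.cofinite)
    (hchar : NoCharacters (FOmega A ω)) : HasDimDropHom (FOmega A ω) := by
  refine hom_of_full (copyProp_central ω hω) (full_commSet ⟨fun χ => ?_⟩)
  have := congrArg (fun f : FOmega A ω →⋆ₙₐ[ℂ] ℂ => f 1) (hchar χ.toNonUnitalStarAlgHom)
  exact one_ne_zero ((map_one χ).symm.trans this)

end Vale.P101
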