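import Mathlib

/-!
# P101: algebraic and functional-calculus preliminaries

Two-sided ideals generated by a set, a Cauchy-Schwarz inequality for finite sums in a C⋆-algebra,
and the intertwining of continuous functional calculi.
-/

namespace Vale.P101

/-! ## Generated two-sided ideals -/

section Ideal

variable {B : Type*} [Ring B] [Algebra ℂ B]

/-- The algebraic two-sided ideal generated by a set. -/
def twoSided (S : Set B) : Submodule ℂ B :=
  Submodule.span ℂ {z | ∃ a, ∃ s ∈ S, ∃ b, z = a * s * b}

/-- A set generates the whole algebra as a two-sided ideal. -/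
def Full (S : Set B) : Prop := (1 : B) ∈ twoSided S

theorem triple_mem {S : Set B} {s : B} (hs : s ∈ S) (a b : B) : a * s * b ∈ twoSided S :=
  Submodule.subset_span ⟨a, s, hs, b, rfl⟩

theorem subset_twoSided {S : Set B} {s : B} (hs : s ∈ S) : s ∈ twoSided S := by
  simpa using triple_mem hs 1 1

theorem mul_mem_twoSided {S : Set B} {z : B} (hz : z ∈ twoSided S) (a b : B) :
    a * z * b ∈ twoSided S := by
  have : twoSided S ≤ (twoSided S).comap ((LinearMap.mulRight ℂ b).comp (LinearMap.mulLeft ℂ a)) :=
    Submodule.span_le.2 <| by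
      rintro z ⟨c, s, hs, d, rfl⟩
      simpa [mul_assoc] using triple_mem hs (a * c) (d * b)
  simpa using this hz

theorem left_mem_twoSided {S : Set B} {z : B} (hz : z ∈ twoSided S) (a : B) :
    a * z ∈ twoSided S := by simpa using mul_mem_twoSided hz a 1

theorem right_mem_twoSided {S : Set B} {z : B} (hz : z ∈ twoSided S) (b : B) :
    z * b ∈ twoSided S := by simpa using mul_mem_twoSided hz 1 b

theorem twoSided_le {S S' : Set B} (h : ∀ s ∈ S, s ∈ twoSided S') : twoSided S ≤ twoSided S' :=
  Submodule.span_le.2 <| by rintro z ⟨a, s, hs, b, rfl⟩; exact mul_mem_twoSided (h s hs) a b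

theorem Full.mono {S S' : Set B} (hS : Full S) (h : ∀ s ∈ S, s ∈ twoSided S') : Full S' :=
  twoSided_le h hS

/-- A member of the generated ideal is a finite sum of products. -/
theorem exists_sum_of_mem {S : Set B} {z : B} (hz : z ∈ twoSided S) :
    ∃ (n : ℕ) (u s v : Fin n → B), (∀ i, s i ∈ S) ∧ z = ∑ i, u i * s i * v i := by
  obtain ⟨n, c, g, hg⟩ := Submodule.mem_span_set'.1 hz
  have hsp : ∀ i, ∃ a, ∃ s ∈ S, ∃ b, (g i : B) = a * s * b := fun i => (g i).2
  choose a s hs b hb using hsp
  refine ⟨n, fun i => c i • a i, s, b, hs, ?_⟩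
  rw [← hg]
  refine Finset.sum_congr rfl fun i _ => ?_
  rw [hb i, smul_mul_assoc, smul_mul_assoc]

theorem Full.exists_sum {S : Set B} (h : Full S) :
    ∃ (n : ℕ) (u s v : Fin n → B), (∀ i, s i ∈ S) ∧ ∑ i, u i * s i * v i = 1 := by
  obtain ⟨n, u, s, v, hs, h⟩ := exists_sum_of_mem h
  exact ⟨n, u, s, v, hs, h.symm⟩

end Ideal

/-! ## C⋆-algebra lemmas -/

section CStar

variable {E : Type*} [CStarAlgebra E]

/-- An element of the generated ideal that is invertible makes the set full. -/
theorem full_of_near {S : Set E} {z : E} (hz : z ∈ twoSided S) (h : ‖1 - z‖ < 1) : Full S := by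
  obtain ⟨w, hw⟩ := (by simpa using isUnit_one_sub_of_norm_lt_one h : IsUnit z)
  have := left_mem_twoSided hz (↑w⁻¹ : E)
  rw [← hw] at this
  simpa [Full] using this

/-- Cauchy-Schwarz for finite sums of products. -/
theorem norm_sum_mul_le {ι : Type*} [Fintype ι] (a b : ι → E) :
    ‖∑ i, a i * b i‖ ≤ √‖∑ i, a i * star (a i)‖ * √‖∑ i, star (b i) * b i‖ := by
  let _ := CStarAlgebra.spectralOrder E
  have _ := CStarAlgebra.spectralOrderedRing E
  open scoped InnerProductSpace in
  let x : WithCStarModule E (ι → E) := (WithCStarModule.equiv E _).symm fun i => star (b i)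
  let y : WithCStarModule E (ι → E) := (WithCStarModule.equiv E _).symm a
  have h := CStarModule.norm_inner_le (A := E) (WithCStarModule E (ι → E)) (x := x) (y := y)
  have h1 : ‖x‖ = √‖∑ i, star (b i) * b i‖ := by
    rw [WithCStarModule.pi_norm]; simp [x, WithCStarModule.inner_def]
  have h2 : ‖y‖ = √‖∑ i, a i * star (a i)‖ := by
    rw [WithCStarModule.pi_norm]; simp [y, WithCStarModule.inner_def]
  rw [h1, h2] at h
  calc ‖∑ i, a i * b i‖ ≤ _ := by
        simpa [x, y, WithCStarModule.pi_inner, WithCStarModule.inner_def] using h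
    _ = _ := mul_comm _ _

/-- If `x` intertwines two self-adjoint elements, it intertwines their functional calculi. -/
theorem intertwine_cfc {x a b : E} (ha : IsSelfAdjoint a) (hb : IsSelfAdjoint b)
    (h : x * a = b * x) {f : ℝ → ℝ} (hf : Continuous f) : x * cfc f a = cfc f b * x := by
  nontriviality E
  set R : ℝ := max ‖a‖ ‖b‖
  have hspec : ∀ c : E, ‖c‖ ≤ R → ∀ t ∈ spectrum ℝ c, t ∈ Set.Icc (-R) R := by
    intro c hc t ht
    have := spectrum.norm_le_norm_of_mem ht
    rw [Real.norm_eq_abs, abs_le] at this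
    exact ⟨by linarith, by linarith⟩
  have hpoly : ∀ p : Polynomial ℝ, x * Polynomial.aeval a p = Polynomial.aeval b p * x := by
    intro p
    induction p using Polynomial.induction_on' with
    | add p q hp hq => simp [mul_add, add_mul, hp, hq]
    | monomial n c =>
      have hpow : x * a ^ n = b ^ n * x := (SemiconjBy.pow_right (show SemiconjBy x a b from h) n)
      simp only [Polynomial.aeval_monomial, ← Algebra.smul_def, mul_smul_comm, smul_mul_assoc, hpow]
  refine eq_of_forall_dist_le fun ε hε => ?_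
  obtain ⟨p, hp⟩ := exists_polynomial_near_continuousMap (-R) R
    ⟨fun t => f t, hf.comp continuous_subtype_val⟩ (ε / (2 * (‖x‖ + 1))) (by positivity)
  have hap : ∀ c : E, IsSelfAdjoint c → ‖c‖ ≤ R →
      ‖cfc f c - Polynomial.aeval c p‖ ≤ ε / (2 * (‖x‖ + 1)) := by
    intro c hc hcR
    rw [← cfc_polynomial p c, ← cfc_sub f (fun t => p.eval t) c hf.continuousOn
      p.continuous.continuousOn]
    refine norm_cfc_le (by positivity) fun t ht => ?_
    have := ContinuousMap.norm_coe_le_norm
      (p.toContinuousMapOn (Set.Icc (-R) R) - ⟨fun t => f t, hf.comp continuous_subtype_val⟩)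
      ⟨t, hspec c hcR t ht⟩
    simp only [ContinuousMap.sub_apply, Polynomial.toContinuousMapOn_apply,
      Polynomial.toContinuousMap_apply, ContinuousMap.coe_mk] at this
    rw [norm_sub_rev]
    linarith
  have h1 := hap a ha (le_max_left _ _)
  have h2 := hap b hb (le_max_right _ _)
  rw [dist_eq_norm]
  calc ‖x * cfc f a - cfc f b * x‖
      = ‖x * (cfc f a - Polynomial.aeval a p) - (cfc f b - Polynomial.aeval b p) * x‖ := by
        rw [mul_sub, sub_mul, hpoly p]; abel_nf
    _ ≤ ‖x‖ * ‖cfc f a - Polynomial.aeval a p‖ + ‖cfc f b - Polynomial.aeval b p‖ * ‖x‖ :=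
        (norm_sub_le _ _).trans (add_le_add (norm_mul_le _ _) (norm_mul_le _ _))
    _ ≤ ε := by
        have e : ε / (2 * (‖x‖ + 1)) * ((‖x‖ + 1) * 2) = ε := by field_simp
        nlinarith [norm_nonneg x, norm_nonneg (cfc f a - Polynomial.aeval a p),
          norm_nonneg (cfc f b - Polynomial.aeval b p)]

/-- If `x * a = c • x` for a self-adjoint `a` and a real `c`, then `x * f(a) = f(c) • x`. -/
theorem mul_cfc_of_eigen {x a : E} (ha : IsSelfAdjoint a) {c : ℝ} (h : x * a = c • x)
    {f : ℝ → ℝ} (hf : Continuous f) : x * cfc f a = f c • x := by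
  have := intertwine_cfc (x := x) (b := algebraMap ℝ E c) ha (IsSelfAdjoint.algebraMap E (IsSelfAdjoint.all c))
    (by rw [h, Algebra.smul_def]) hf
  rw [this, cfc_algebraMap, ← Algebra.smul_def]

/-- If `a * x = c • x` for a self-adjoint `a` and a real `c`, then `f(a) * x = f(c) • x`. -/
theorem cfc_mul_of_eigen {x a : E} (ha : IsSelfAdjoint a) {c : ℝ} (h : a * x = c • x)
    {f : ℝ → ℝ} (hf : Continuous f) : cfc f a * x = f c • x := by
  have := intertwine_cfc (x := x) (a := algebraMap ℝ E c) (IsSelfAdjoint.algebraMap E (IsSelfAdjoint.all c)) ha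
    (by rw [h, ← Algebra.commutes, ← Algebra.smul_def]) hf
  rw [← this, cfc_algebraMap, ← Algebra.commutes, ← Algebra.smul_def]

end CStar

end Vale.P101
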