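import Mathlib

/-!
# P101: grid functions and residue windows
-/

namespace Vale.P101

/-- The clamp of a real number to `[0, 1]`. -/
noncomputable def clampI (x : ℝ) : ℝ := max 0 (min 1 x)

theorem continuous_clampI : Continuous clampI := continuous_const.max (continuous_const.min continuous_id)

theorem clampI_nonneg (x : ℝ) : 0 ≤ clampI x := le_max_left _ _

theorem clampI_le_one (x : ℝ) : clampI x ≤ 1 := max_le zero_le_one (min_le_left _ _)

theorem clampI_mono : Monotone clampI := fun _ _ h => max_le_max le_rfl (min_le_min le_rfl h)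

theorem clampI_of_nonpos {x : ℝ} (h : x ≤ 0) : clampI x = 0 := by
  rw [clampI, min_eq_right (h.trans zero_le_one), max_eq_left h]

theorem clampI_of_one_le {x : ℝ} (h : 1 ≤ x) : clampI x = 1 := by
  rw [clampI, min_eq_left h, max_eq_right zero_le_one]

theorem clampI_of_mem {x : ℝ} (h : 0 ≤ x) (h' : x ≤ 1) : clampI x = x := by
  rw [clampI, min_eq_right h', max_eq_right h]

/-- The ramp from `k / n` to `(k + 1) / n`. -/
noncomputable def ramp (n k : ℕ) (u : ℝ) : ℝ := clampI (n * u - k)

theorem continuous_ramp (n k : ℕ) : Continuous (ramp n k) :=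
  continuous_clampI.comp (by fun_prop)

theorem ramp_anti (n : ℕ) {k l : ℕ} (h : k ≤ l) (u : ℝ) : ramp n l u ≤ ramp n k u :=
  clampI_mono (by have : (k : ℝ) ≤ l := by exact_mod_cast h
                  linarith)

theorem sum_ramp (n : ℕ) (u : ℝ) (m : ℕ) :
    ∑ k ∈ Finset.range m, ramp n k u = max 0 (min (m : ℝ) (n * u)) := by
  induction m with
  | zero =>
    rcases le_total (0 : ℝ) (n * u) with h | h <;> simp [h]
  | succ m ih =>
    rw [Finset.sum_range_succ, ih, ramp, clampI]
    push_cast
    have hm : (0 : ℝ) ≤ m := m.cast_nonneg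
    rcases le_total ((n : ℝ) * u) m with h | h
    · rw [min_eq_right h, min_eq_right (show (n : ℝ) * u - m ≤ 1 by linarith),
        max_eq_left (show (n : ℝ) * u - m ≤ 0 by linarith),
        min_eq_right (show (n : ℝ) * u ≤ m + 1 by linarith), add_zero]
    · rcases le_total ((n : ℝ) * u) (m + 1) with h' | h'
      · rw [min_eq_left h, min_eq_right (show (n : ℝ) * u - m ≤ 1 by linarith),
          max_eq_right (show 0 ≤ (n : ℝ) * u - m by linarith), min_eq_right h',
          max_eq_right hm, max_eq_right (by linarith)]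
        ring
      · rw [min_eq_left h, min_eq_left (show 1 ≤ (n : ℝ) * u - m by linarith), min_eq_left h',
          max_eq_right hm, max_eq_right zero_le_one, max_eq_right (by linarith)]

theorem sum_ramp_diff (n : ℕ) (u : ℝ) (m : ℕ) :
    ∑ k ∈ Finset.range m, (ramp n k u - ramp n (k + 2) u) =
      ramp n 0 u + ramp n 1 u - ramp n m u - ramp n (m + 1) u := by
  induction m with
  | zero => simp
  | succ m ih => rw [Finset.sum_range_succ, ih]; ring

/-- The hat function at node `p` of the grid of mesh `1 / N`. -/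
noncomputable def hat (N p : ℕ) (u : ℝ) : ℝ := max 0 (1 - |N * u - p|)

theorem continuous_hat (N p : ℕ) : Continuous (hat N p) := by
  unfold hat; fun_prop

theorem hat_eq (N p : ℕ) (u : ℝ) :
    hat N p u = clampI (N * u - p + 1) - clampI (N * u - p) := by
  unfold hat
  set x : ℝ := N * u - p
  rcases le_total x 0 with h | h
  · rcases le_total x (-1) with h' | h'
    · rw [abs_of_nonpos h, clampI_of_nonpos h, clampI_of_nonpos (by linarith),
        max_eq_left (by linarith)]
      ring
    · rw [abs_of_nonpos h, clampI_of_nonpos h, clampI_of_mem (by linarith) (by linarith),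
        max_eq_right (by linarith)]
      ring
  · rcases le_total x 1 with h' | h'
    · rw [abs_of_nonneg h, clampI_of_mem h h', clampI_of_one_le (by linarith),
        max_eq_right (by linarith)]
    · rw [abs_of_nonneg h, clampI_of_one_le h', clampI_of_one_le (by linarith),
        max_eq_left (by linarith)]
      ring

theorem sum_hat (N : ℕ) {u : ℝ} (h0 : 0 ≤ u) (h1 : u ≤ 1) :
    ∑ p ∈ Finset.range (N + 1), hat N p u = 1 := by
  have key : ∀ m : ℕ, ∑ p ∈ Finset.range m, hat N p u =
      clampI (N * u + 1) - clampI (N * u + 1 - m) := by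
    intro m
    induction m with
    | zero => simp
    | succ m ih => rw [Finset.sum_range_succ, ih, hat_eq]; push_cast; ring_nf
  rw [key]
  have hN : (0 : ℝ) ≤ N := N.cast_nonneg
  rw [clampI_of_one_le (by nlinarith), clampI_of_nonpos (by push_cast; nlinarith)]
  ring

theorem hat_mul_hat (N : ℕ) {p q : ℕ} (h : p + 2 ≤ q) (u : ℝ) : hat N p u * hat N q u = 0 := by
  have hq : (p : ℝ) + 2 ≤ q := by exact_mod_cast h
  rcases le_total ((N : ℝ) * u) (p + 1) with h' | h'
  · rw [show hat N q u = 0 from max_eq_left (by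
      rw [sub_nonpos]; exact le_trans (by linarith) (neg_le_abs _)), mul_zero]
  · rw [show hat N p u = 0 from max_eq_left (by
      rw [sub_nonpos]; exact le_trans (by linarith) (le_abs_self _)), zero_mul]

/-- The upper ramp vanishes near low nodes. -/
theorem hat_mul_ramp_eq_zero {n D k p : ℕ} (h : p + 1 ≤ (k + 2) * D) (u : ℝ) :
    hat (n * D) p u * ramp n (k + 2) u = 0 := by
  rcases le_total ((n : ℝ) * u) ((k + 2 : ℕ) : ℝ) with h' | h'
  · rw [ramp, clampI_of_nonpos (by linarith), mul_zero]
  · have hh : (p : ℝ) + 1 ≤ ((k + 2 : ℕ) : ℝ) * D := by exact_mod_cast h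
    have hD : ((k + 2 : ℕ) : ℝ) * D ≤ ((n * D : ℕ) : ℝ) * u := by
      push_cast at h' ⊢
      nlinarith [(D.cast_nonneg : (0 : ℝ) ≤ D)]
    rw [show hat (n * D) p u = 0 from max_eq_left (by
      rw [sub_nonpos]; exact le_trans (by linarith) (le_abs_self _)), zero_mul]

/-- The lower ramp complement vanishes near high nodes. -/
theorem hat_mul_ramp_compl_eq_zero {n D k q : ℕ} (h : (k + 1) * D + 1 ≤ q) (u : ℝ) :
    hat (n * D) q u * (1 - ramp n k u) = 0 := by
  rcases le_total ((k + 1 : ℕ) : ℝ) ((n : ℝ) * u) with h' | h'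
  · rw [ramp, clampI_of_one_le (by push_cast at h'; linarith), sub_self, mul_zero]
  · have hh : ((k + 1 : ℕ) : ℝ) * D + 1 ≤ (q : ℝ) := by exact_mod_cast h
    have hD : ((n * D : ℕ) : ℝ) * u ≤ ((k + 1 : ℕ) : ℝ) * D := by
      push_cast at h' ⊢
      nlinarith [(D.cast_nonneg : (0 : ℝ) ≤ D)]
    rw [show hat (n * D) q u = 0 from max_eq_left (by
      rw [sub_nonpos]; exact le_trans (by linarith) (neg_le_abs _)), zero_mul]

/-- A residue window `[c, c + w]` modulo `per`. -/
def InWin (per c w s : ℕ) : Prop := ∃ m, per * m + c ≤ s ∧ s ≤ per * m + c + w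

/-- A slowly increasing sum of choices visits every wide window. -/
theorem exists_choice_inWin {M N W per c : ℕ} (hpos : 0 < per) (hN : N ≤ W) (hc : c ≤ per)
    (lo hi : Fin M → ℕ) (hd : ∀ k, lo k ≤ hi k) (hb : ∀ k, hi k ≤ N)
    (hper : per + ∑ k, lo k ≤ ∑ k, hi k) :
    ∃ P : Fin M → ℕ, (∀ k, P k = lo k ∨ P k = hi k) ∧ InWin per c W (∑ k, P k) := by
  classical
  let Q : ℕ → Fin M → ℕ := fun j k => if (k : ℕ) < j then hi k else lo k
  have hQ0 : ∑ k, Q 0 k = ∑ k, lo k :=
    Finset.sum_congr rfl fun k _ => if_neg (Nat.not_lt_zero _)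
  have hQM : ∑ k, Q M k = ∑ k, hi k := Finset.sum_congr rfl fun k _ => if_pos k.2
  obtain ⟨m, hm1, hm2⟩ : ∃ m, (∑ k, lo k) < per * m + c ∧ per * m + c ≤ (∑ k, lo k) + per := by
    have h1 := Nat.div_add_mod ((∑ k, lo k) + (per - c)) per
    have h2 := Nat.mod_lt ((∑ k, lo k) + (per - c)) hpos
    exact ⟨((∑ k, lo k) + (per - c)) / per, by omega, by omega⟩
  obtain ⟨j, hj1, hj2⟩ : ∃ j, per * m + c ≤ ∑ k, Q j k ∧ ∑ k, Q j k ≤ per * m + c + N := by
    have ht : ∃ j, per * m + c ≤ ∑ k, Q j k := ⟨M, by omega⟩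
    refine ⟨Nat.find ht, Nat.find_spec ht, ?_⟩
    rcases Nat.eq_zero_or_pos (Nat.find ht) with h0 | h0
    · rw [h0, hQ0]; omega
    · obtain ⟨j, hj⟩ := Nat.exists_eq_succ_of_ne_zero h0.ne'
      have hlt : ¬ per * m + c ≤ ∑ k, Q j k := Nat.find_min ht (by omega)
      rw [hj]
      have hstep : ∑ k, Q (j + 1) k ≤ ∑ k, Q j k + N := by
        calc ∑ k, Q (j + 1) k ≤ ∑ k, (Q j k + if (k : ℕ) = j then N else 0) :=
              Finset.sum_le_sum fun k _ => by
                have := hb k
                simp only [Q]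
                split_ifs <;> omega
          _ ≤ ∑ k, Q j k + N := by
              rw [Finset.sum_add_distrib]
              gcongr
              by_cases hjM : j < M
              · rw [Finset.sum_eq_single ⟨j, hjM⟩ (fun k _ hk => if_neg fun h => hk (Fin.ext h))
                  (by simp)]
                simp
              · rw [Finset.sum_eq_zero fun k _ => if_neg (by have := k.2; omega)]
                exact Nat.zero_le _
      rw [Nat.succ_eq_add_one]
      omega
  refine ⟨Q j, fun k => ?_, m, hj1, by omega⟩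
  by_cases h : (k : ℕ) < j
  · exact Or.inr (if_pos h)
  · exact Or.inl (if_neg h)

/-- Choices in windows of far apart residues differ by at least two somewhere. -/
theorem exists_far {M per c d w v : ℕ} (P Q : Fin M → ℕ) (hP : InWin per c w (∑ k, P k))
    (hQ : InWin per d v (∑ k, Q k)) (h1 : c + w + M < d) (h2 : d + v + M < per + c) :
    ∃ k, P k + 2 ≤ Q k ∨ Q k + 2 ≤ P k := by
  by_contra hcon
  push Not at hcon
  have e1 : ∑ k, P k ≤ ∑ k, Q k + M := by
    calc ∑ k, P k ≤ ∑ k, (Q k + 1) := Finset.sum_le_sum fun k _ => by have := hcon k; omega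
      _ = _ := by simp [Finset.sum_add_distrib]
  have e2 : ∑ k, Q k ≤ ∑ k, P k + M := by
    calc ∑ k, Q k ≤ ∑ k, (P k + 1) := Finset.sum_le_sum fun k _ => by have := hcon k; omega
      _ = _ := by simp [Finset.sum_add_distrib]
  obtain ⟨m, hm1, hm2⟩ := hP
  obtain ⟨m', hm1', hm2'⟩ := hQ
  rcases le_or_gt m m' with h | h
  · have := Nat.mul_le_mul_left per h
    omega
  · have := Nat.mul_le_mul_left per (show m' + 1 ≤ m from h)
    rw [mul_add, mul_one] at this
    omega

/-- Neighbours of a choice in a shrunk window lie in the window. -/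
theorem InWin.neighbour {M per c w : ℕ} {P Q : Fin M → ℕ}
    (hP : InWin per (c + M) w (∑ k, P k)) (h : ∀ k, P k ≤ Q k + 1 ∧ Q k ≤ P k + 1) :
    InWin per c (w + 2 * M) (∑ k, Q k) := by
  have e1 : ∑ k, P k ≤ ∑ k, Q k + M := by
    calc ∑ k, P k ≤ ∑ k, (Q k + 1) := Finset.sum_le_sum fun k _ => (h k).1
      _ = _ := by simp [Finset.sum_add_distrib]
  have e2 : ∑ k, Q k ≤ ∑ k, P k + M := by
    calc ∑ k, Q k ≤ ∑ k, (P k + 1) := Finset.sum_le_sum fun k _ => (h k).2
      _ = _ := by simp [Finset.sum_add_distrib]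
  obtain ⟨m, hm1, hm2⟩ := hP
  exact ⟨m, by omega, by omega⟩

end Vale.P101
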