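import Vale.Agent.P101.Copies
import Vale.Agent.P101.Grid

/-!
# P101: a self-adjoint element that is nowhere scalar, and its separated pairs
-/

namespace Vale.P101

variable {E : Type*} [CStarAlgebra E]

/-- Commutators of self-adjoint elements. -/
def commSet (E : Type*) [CStarAlgebra E] : Set E :=
  {z | ∃ x y : E, IsSelfAdjoint x ∧ IsSelfAdjoint y ∧ z = x * y - y * x}

theorem exists_nonscalar (hE : CopyProp E) (h : Full (commSet E)) :
    ∃ T : E, IsSelfAdjoint T ∧ Full {z | ∃ e, z = T * e - e * T} := by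
  classical
  obtain ⟨n, u, c, v, hc, hsum⟩ := h.exists_sum
  choose x y hx hy hxy using hc
  let s : Set E := Set.range u ∪ Set.range v ∪ Set.range x ∪ Set.range y
  have hs : s.Finite := by simp [s, Set.finite_range]
  let U : Fin n → gen s := fun t => ⟨u t, StarAlgebra.subset_adjoin ℂ s (by simp [s])⟩
  let V : Fin n → gen s := fun t => ⟨v t, StarAlgebra.subset_adjoin ℂ s (by simp [s])⟩
  let X : Fin n → gen s := fun t => ⟨x t, StarAlgebra.subset_adjoin ℂ s (by simp [s])⟩
  let Y : Fin n → gen s := fun t => ⟨y t, StarAlgebra.subset_adjoin ℂ s (by simp [s])⟩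
  let C : Fin n → gen s := fun t => X t * Y t - Y t * X t
  have h1 : (1 : gen s) = ∑ t, U t * C t * V t := by
    apply Subtype.ext
    simp only [AddSubmonoidClass.coe_finsetSum, OneMemClass.coe_one]
    rw [← hsum]
    exact Finset.sum_congr rfl fun t _ => by simp [U, V, C, X, Y, hxy t]
  obtain ⟨ρ, hρ⟩ := hE.exists_copies hs (ι := Fin n ⊕ (Fin n → Fin n))
  let term : Fin n → (Fin n → Fin n) → E := fun i σ =>
    ρ (.inl i) (X (σ i)) * ρ (.inr σ) (X i)
  let T : E := ∑ p : Fin n × (Fin n → Fin n), term p.1 p.2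
  have hXsa : ∀ t, IsSelfAdjoint (X t) := fun t => Subtype.ext (hx t)
  refine ⟨T, isSelfAdjoint_sum Finset.univ fun p _ => ?_, ?_⟩
  · exact (IsSelfAdjoint.commute_iff ((hXsa _).map _) ((hXsa _).map _)).1
      (hρ (show (Sum.inl p.1 : Fin n ⊕ (Fin n → Fin n)) ≠ .inr p.2 by simp) _ _)
  · set J : Set E := {z | ∃ e, z = T * e - e * T}
    show (1 : E) ∈ twoSided J
    have hpair : ∀ (i : Fin n) (σ : Fin n → Fin n),
        ρ (.inl i) (C (σ i)) * ρ (.inr σ) (C i) ∈ twoSided J := by
      intro i σ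
      set a := ρ (.inl i) (Y (σ i))
      set b := ρ (.inr σ) (Y i)
      have hTa : T * a - a * T =
          ∑ σ', ρ (.inl i) (X (σ' i) * Y (σ i) - Y (σ i) * X (σ' i)) * ρ (.inr σ') (X i) := by
        rw [Finset.sum_mul, Finset.mul_sum, ← Finset.sum_sub_distrib, Fintype.sum_prod_type,
          Finset.sum_eq_single i]
        · refine Finset.sum_congr rfl fun σ' _ => ?_
          have e := (hρ (show (Sum.inr σ' : Fin n ⊕ (Fin n → Fin n)) ≠ .inl i by simp)
            (X i) (Y (σ i))).eq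
          simp only [term, a, map_sub, map_mul, sub_mul, mul_assoc]
          rw [e]
        · intro i' _ hi'
          refine Finset.sum_eq_zero fun σ' _ => ?_
          have e1 : Commute a (ρ (.inl i') (X (σ' i'))) := hρ (by simpa using Ne.symm hi') _ _
          have e2 : Commute a (ρ (.inr σ') (X i')) := hρ (by simp) _ _
          rw [sub_eq_zero]
          exact (e1.mul_right e2).eq.symm
        · simp
      have hTab : (T * a - a * T) * b - b * (T * a - a * T) =
          ρ (.inl i) (C (σ i)) * ρ (.inr σ) (C i) := by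
        rw [hTa, Finset.sum_mul, Finset.mul_sum, ← Finset.sum_sub_distrib,
          Finset.sum_eq_single σ]
        · have e : Commute b (ρ (.inl i) (X (σ i) * Y (σ i) - Y (σ i) * X (σ i))) :=
            hρ (by simp) _ _
          rw [← mul_assoc, e.eq, mul_assoc, mul_assoc, ← mul_sub]
          simp [C, b, map_sub, map_mul]
        · intro σ' _ hσ
          have e1 : Commute b (ρ (.inl i) (X (σ' i) * Y (σ i) - Y (σ i) * X (σ' i))) :=
            hρ (by simp) _ _
          have e2 : Commute b (ρ (.inr σ') (X i)) := hρ (by simpa using Ne.symm hσ) _ _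
          rw [sub_eq_zero]
          exact (e1.mul_right e2).eq.symm
        · simp
      rw [← hTab]
      have hj : T * a - a * T ∈ twoSided J := subset_twoSided ⟨a, rfl⟩
      exact sub_mem (right_mem_twoSided hj b) (left_mem_twoSided hj b)
    have hexp : (1 : E) = ∑ τ : Fin n ⊕ (Fin n → Fin n) → Fin n,
        prodMap ρ hρ (fun j => U (τ j) * C (τ j) * V (τ j)) := by
      rw [← prodMap_sum ρ hρ (fun _ t => U t * C t * V t), ← h1]
      exact (map_one (prodMap ρ hρ)).symm
    rw [hexp]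
    refine Submodule.sum_mem _ fun τ _ => ?_
    have hf : (fun j => U (τ j) * C (τ j) * V (τ j)) =
        (fun j => U (τ j)) * (fun j => C (τ j)) * (fun j => V (τ j)) := rfl
    rw [hf, map_mul, map_mul]
    refine mul_mem_twoSided ?_ _ _
    set σ : Fin n → Fin n := fun i => τ (.inl i)
    set i := τ (.inr σ)
    rw [prodMap_eq_mul ρ hρ _ (.inl i), prodMap_eq_mul ρ hρ _ (.inr σ), Function.update_of_ne
      (by simp), ← mul_assoc]
    exact right_mem_twoSided (hpair i σ) _

/-- A self-adjoint element with spectrum in `[0, 1]` whose commutators generate. -/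
theorem exists_nonscalar_unit (hE : CopyProp E) (h : Full (commSet E)) :
    ∃ T : E, IsSelfAdjoint T ∧ (∀ u ∈ spectrum ℝ T, 0 ≤ u ∧ u ≤ 1) ∧
      Full {z | ∃ e, z = T * e - e * T} := by
  rcases subsingleton_or_nontrivial E with _ | _
  · exact ⟨0, IsSelfAdjoint.zero E, fun u hu => by
      rw [spectrum.of_subsingleton] at hu; exact hu.elim,
      by rw [Full, Subsingleton.elim (1 : E) 0]; exact Submodule.zero_mem _⟩
  obtain ⟨T, hT, hfull⟩ := exists_nonscalar hE h
  set c : ℝ := 1 / (2 * (‖T‖ + 1))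
  have hc : 0 < c := by positivity
  refine ⟨cfc (fun u : ℝ => c * u + 1 / 2) T, cfc_predicate _ _, ?_, ?_⟩
  · rw [cfc_map_spectrum (fun u : ℝ => c * u + 1 / 2) T hT]
    rintro _ ⟨u, hu, rfl⟩
    have hu' := spectrum.norm_le_norm_of_mem hu
    rw [Real.norm_eq_abs, abs_le] at hu'
    have e : c * (2 * (‖T‖ + 1)) = 1 := by simp only [c]; field_simp
    constructor <;> nlinarith
  · refine hfull.mono ?_
    rintro z ⟨e, rfl⟩
    have hval : cfc (fun u : ℝ => c * u + 1 / 2) T = c • T + algebraMap ℝ E (1 / 2) := by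
      rw [cfc_add_const (1 / 2 : ℝ) (fun u : ℝ => c * u) T, cfc_const_mul_id c T]
    have : T * e - e * T = (c⁻¹ : ℝ) • (cfc (fun u : ℝ => c * u + 1 / 2) T * e -
        e * cfc (fun u : ℝ => c * u + 1 / 2) T) := by
      rw [hval, add_mul, mul_add, Algebra.commutes, add_sub_add_right_eq_sub, smul_mul_assoc,
        mul_smul_comm, ← smul_sub, smul_smul, inv_mul_cancel₀ hc.ne', one_smul]
    rw [this]
    exact Submodule.smul_of_tower_mem _ _ (subset_twoSided ⟨e, rfl⟩)

theorem cfc_sum_fun {κ : Type*} (s : Finset κ) (F : κ → ℝ → ℝ) (hF : ∀ k, Continuous (F k))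
    {a : E} (_ha : IsSelfAdjoint a) :
    cfc (fun u => ∑ k ∈ s, F k u) a = ∑ k ∈ s, cfc (F k) a := by
  rw [show (fun u => ∑ k ∈ s, F k u) = ∑ k ∈ s, F k by funext u; simp]
  exact cfc_sum F a s (fun k _ => (hF k).continuousOn)

/-- Grid bumps at far apart nodes already generate. -/
theorem exists_separated (hE : CopyProp E) (h : Full (commSet E)) :
    ∃ (T : E) (n : ℕ), IsSelfAdjoint T ∧ 0 < n ∧ (∀ u ∈ spectrum ℝ T, 0 ≤ u ∧ u ≤ 1) ∧
      Full {z | ∃ p q : ℕ, p ≤ n * 30 ∧ q ≤ n * 30 ∧ (p + 30 ≤ q ∨ q + 30 ≤ p) ∧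
        ∃ e, z = cfc (hat (n * 30) p) T * e * cfc (hat (n * 30) q) T} := by
  obtain ⟨T, hT, hspec, hfull⟩ := exists_nonscalar_unit hE h
  obtain ⟨m, w, c, w', hc, hsum⟩ := hfull.exists_sum
  choose e he using hc
  set K : ℝ := ∑ i, 4 * (‖w i‖ * ‖e i‖ * ‖w' i‖)
  obtain ⟨n, hn⟩ := exists_nat_gt ((2 * K) ^ 2 + 1)
  have hn0 : 0 < n := by
    by_contra h0
    simp only [not_lt, nonpos_iff_eq_zero] at h0
    subst h0
    simp at hn
    nlinarith
  refine ⟨T, n, hT, hn0, hspec, ?_⟩
  set N := n * 30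
  set S : Set E := {z | ∃ p q : ℕ, p ≤ N ∧ q ≤ N ∧ (p + 30 ≤ q ∨ q + 30 ≤ p) ∧
    ∃ e, z = cfc (hat N p) T * e * cfc (hat N q) T}
  let r : ℕ → E := fun k => cfc (ramp n k) T
  have hhat : ∑ p ∈ Finset.range (N + 1), cfc (hat N p) T = 1 := by
    rw [← cfc_sum_fun _ _ (continuous_hat N) hT]
    rw [cfc_congr (g := fun _ : ℝ => (1 : ℝ)) fun u hu => sum_hat N (hspec u hu).1 (hspec u hu).2]
    exact cfc_const_one ℝ T
  -- separated pairs lie in the ideal
  have hRg : ∀ k y, r (k + 2) * y * (1 - r k) ∈ twoSided S ∧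
      (1 - r k) * y * r (k + 2) ∈ twoSided S := by
    intro k y
    have hg : 1 - r k = cfc (fun u => 1 - ramp n k u) T := by
      rw [cfc_sub _ _ T (by fun_prop) (continuous_ramp n k).continuousOn, cfc_const_one ℝ T]
    have hlow : ∀ p, p + 1 ≤ (k + 2) * 30 → cfc (hat N p) T * r (k + 2) = 0 := fun p hp => by
      rw [← cfc_mul _ _ T (continuous_hat N p).continuousOn (continuous_ramp n _).continuousOn,
        ← cfc_zero ℝ T]
      exact cfc_congr fun u _ => hat_mul_ramp_eq_zero hp u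
    have hhigh : ∀ q, (k + 1) * 30 + 1 ≤ q → cfc (hat N q) T * (1 - r k) = 0 := fun q hq => by
      rw [hg, ← cfc_mul (hat N q) (fun u => 1 - ramp n k u) T (continuous_hat N q).continuousOn
        (continuous_const.sub (continuous_ramp n _)).continuousOn, ← cfc_zero ℝ T]
      exact cfc_congr fun u _ => hat_mul_ramp_compl_eq_zero hq u
    have hcm : ∀ q, Commute (cfc (hat N q) T) (1 - r k) := fun q => by
      rw [hg]; exact cfc_commute_cfc _ _ T
    have hcr : ∀ q, Commute (cfc (hat N q) T) (r (k + 2)) := fun q => cfc_commute_cfc _ _ T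
    constructor
    · rw [show r (k + 2) * y * (1 - r k) =
        (∑ p ∈ Finset.range (N + 1), cfc (hat N p) T) * (r (k + 2) * y * (1 - r k)) *
          (∑ p ∈ Finset.range (N + 1), cfc (hat N p) T) by rw [hhat, one_mul, mul_one]]
      rw [Finset.sum_mul, Finset.sum_mul]
      refine Submodule.sum_mem _ fun p hp => ?_
      rw [Finset.mul_sum]
      refine Submodule.sum_mem _ fun q hq => ?_
      rw [Finset.mem_range] at hp hq
      by_cases hp' : p + 1 ≤ (k + 2) * 30
      · rw [← mul_assoc, ← mul_assoc, hlow p hp']; simp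
      by_cases hq' : (k + 1) * 30 + 1 ≤ q
      · rw [mul_assoc, mul_assoc (r (k + 2) * y), ← (hcm q).eq, hhigh q hq']; simp
      exact subset_twoSided ⟨p, q, by omega, by omega, Or.inr (by omega), _, rfl⟩
    · rw [show (1 - r k) * y * r (k + 2) =
        (∑ p ∈ Finset.range (N + 1), cfc (hat N p) T) * ((1 - r k) * y * r (k + 2)) *
          (∑ p ∈ Finset.range (N + 1), cfc (hat N p) T) by rw [hhat, one_mul, mul_one]]
      rw [Finset.sum_mul, Finset.sum_mul]
      refine Submodule.sum_mem _ fun p hp => ?_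
      rw [Finset.mul_sum]
      refine Submodule.sum_mem _ fun q hq => ?_
      rw [Finset.mem_range] at hp hq
      by_cases hp' : (k + 1) * 30 + 1 ≤ p
      · rw [← mul_assoc, ← mul_assoc, hhigh p hp']; simp
      by_cases hq' : q + 1 ≤ (k + 2) * 30
      · rw [mul_assoc, mul_assoc ((1 - r k) * y), ← (hcr q).eq, hlow q hq']; simp
      exact subset_twoSided ⟨p, q, by omega, by omega, Or.inl (by omega), _, rfl⟩
  -- the near part is small
  let d : ℕ → E := fun k => r k - r (k + 2)
  have hd : ∀ k, IsSelfAdjoint (d k) := fun k => (cfc_predicate (p := IsSelfAdjoint) (ramp n k) T).sub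
    (cfc_predicate (p := IsSelfAdjoint) (ramp n (k + 2)) T)
  have hd2 : ‖∑ k ∈ Finset.range n, d k * d k‖ ≤ 2 := by
    have : ∑ k ∈ Finset.range n, d k * d k = cfc (fun u => ∑ k ∈ Finset.range n,
        (ramp n k u - ramp n (k + 2) u) * (ramp n k u - ramp n (k + 2) u)) T := by
      rw [cfc_sum_fun _ (fun k u => (ramp n k u - ramp n (k + 2) u) *
        (ramp n k u - ramp n (k + 2) u)) (fun k => ((continuous_ramp n k).sub
        (continuous_ramp n _)).mul ((continuous_ramp n k).sub (continuous_ramp n _))) hT]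
      refine Finset.sum_congr rfl fun k _ => ?_
      have hdc : ContinuousOn (fun u => ramp n k u - ramp n (k + 2) u) (spectrum ℝ T) :=
        ((continuous_ramp n k).sub (continuous_ramp n _)).continuousOn
      rw [cfc_mul (fun u => ramp n k u - ramp n (k + 2) u) (fun u => ramp n k u - ramp n (k + 2) u)
        T hdc hdc, cfc_sub (ramp n k) (ramp n (k + 2)) T (continuous_ramp n k).continuousOn
        (continuous_ramp n _).continuousOn]
    rw [this]
    refine norm_cfc_le (by norm_num) fun u _ => ?_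
    have h0 : ∀ k, 0 ≤ ramp n k u - ramp n (k + 2) u ∧ ramp n k u - ramp n (k + 2) u ≤ 1 :=
      fun k => ⟨sub_nonneg.2 (ramp_anti n (by omega) u),
        by linarith [clampI_le_one ((n : ℝ) * u - k), clampI_nonneg ((n : ℝ) * u - ↑(k + 2)),
          show ramp n k u = clampI (n * u - k) from rfl,
          show ramp n (k + 2) u = clampI (n * u - ↑(k + 2)) from rfl]⟩
    rw [Real.norm_eq_abs, abs_of_nonneg (Finset.sum_nonneg fun k _ => mul_nonneg (h0 k).1 (h0 k).1)]
    refine (Finset.sum_le_sum (g := fun k => ramp n k u - ramp n (k + 2) u) fun k _ => ?_).trans ?_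
    · nlinarith [(h0 k).1, (h0 k).2]
    · rw [sum_ramp_diff]
      unfold ramp
      linarith [clampI_le_one ((n : ℝ) * u - (0 : ℕ)), clampI_le_one ((n : ℝ) * u - (1 : ℕ)),
        clampI_nonneg ((n : ℝ) * u - (n : ℕ)), clampI_nonneg ((n : ℝ) * u - (n + 1 : ℕ))]
  have hr1 : ∀ k, ‖1 - r k‖ ≤ 1 := fun k => by
    have : 1 - r k = cfc (fun u => 1 - ramp n k u) T := by
      rw [cfc_sub _ _ T (by fun_prop) (continuous_ramp n k).continuousOn, cfc_const_one ℝ T]
    rw [this]
    refine norm_cfc_le zero_le_one fun u _ => ?_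
    rw [Real.norm_eq_abs, abs_le, ramp]
    constructor <;> linarith [clampI_le_one ((n : ℝ) * u - k), clampI_nonneg ((n : ℝ) * u - k)]
  have hsplit : ∀ x : E, ∃ g ∈ twoSided S,
      ‖(T * x - x * T) - g‖ ≤ 4 * ‖x‖ * (√n / n) := by
    intro x
    have hTn : (n : ℝ) • T = ∑ k ∈ Finset.range n, r k := by
      rw [← cfc_sum_fun _ _ (continuous_ramp n) hT, ← cfc_const_mul_id (n : ℝ) T]
      refine cfc_congr fun u hu => ?_
      rw [sum_ramp]
      obtain ⟨h0, h1⟩ := hspec u hu
      have hn' : (0 : ℝ) ≤ n := n.cast_nonneg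
      rw [min_eq_right (by nlinarith), max_eq_right (by positivity)]
    have hn' : (n : ℝ) ≠ 0 := by positivity
    refine ⟨(n : ℝ)⁻¹ • ∑ k ∈ Finset.range n,
      (r (k + 2) * x * (1 - r k) - (1 - r k) * x * r (k + 2)),
      Submodule.smul_of_tower_mem _ _ (Submodule.sum_mem _ fun k _ =>
        sub_mem (hRg k x).1 (hRg k x).2), ?_⟩
    have e : (T * x - x * T) - (n : ℝ)⁻¹ • ∑ k ∈ Finset.range n,
        (r (k + 2) * x * (1 - r k) - (1 - r k) * x * r (k + 2)) =
        (n : ℝ)⁻¹ • (∑ k ∈ Finset.range n, d k * (x * (1 - r k)) -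
          ∑ k ∈ Finset.range n, (1 - r k) * x * d k) := by
      have : (n : ℝ) • (T * x - x * T) =
          ∑ k ∈ Finset.range n, (r k * x * (1 - r k) - (1 - r k) * x * r k) := by
        rw [smul_sub, ← smul_mul_assoc, ← mul_smul_comm, hTn, Finset.sum_mul, Finset.mul_sum,
          ← Finset.sum_sub_distrib]
        refine Finset.sum_congr rfl fun k _ => ?_
        noncomm_ring
      rw [← inv_smul_smul₀ hn' (T * x - x * T), this, ← smul_sub, ← Finset.sum_sub_distrib,
        ← Finset.sum_sub_distrib]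
      congr 1
      refine Finset.sum_congr rfl fun k _ => ?_
      simp only [d]
      noncomm_ring
    rw [e, norm_smul, Real.norm_of_nonneg (by positivity)]
    have hb : ∀ k, ‖x * (1 - r k)‖ ≤ ‖x‖ ∧ ‖(1 - r k) * x‖ ≤ ‖x‖ := fun k =>
      ⟨(norm_mul_le _ _).trans (mul_le_of_le_one_right (norm_nonneg _) (hr1 k)),
        (norm_mul_le _ _).trans (mul_le_of_le_one_left (norm_nonneg _) (hr1 k))⟩
    have hdsum : ‖∑ k : Fin n, d k * d k‖ ≤ 2 := by
      rw [← Finset.sum_range (fun k => d k * d k)]; exact hd2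
    have hrow : ∀ b : Fin n → E, (∀ k, ‖b k‖ ≤ ‖x‖) →
        √‖∑ k, star (b k) * b k‖ ≤ √n * ‖x‖ ∧ √‖∑ k, b k * star (b k)‖ ≤ √n * ‖x‖ := by
      intro b hb
      rw [← Real.sqrt_sq (norm_nonneg x), ← Real.sqrt_mul n.cast_nonneg]
      constructor <;> refine Real.sqrt_le_sqrt ((norm_sum_le _ _).trans ?_)
      · refine (Finset.sum_le_card_nsmul _ _ (‖x‖ ^ 2) fun k _ => ?_).trans (by simp)
        rw [CStarRing.norm_star_mul_self, ← sq]
        exact pow_le_pow_left₀ (norm_nonneg _) (hb k) 2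
      · refine (Finset.sum_le_card_nsmul _ _ (‖x‖ ^ 2) fun k _ => ?_).trans (by simp)
        rw [CStarRing.norm_self_mul_star, ← sq]
        exact pow_le_pow_left₀ (norm_nonneg _) (hb k) 2
    have hs2 : √(2 : ℝ) ≤ 2 := Real.sqrt_le_iff.2 ⟨by norm_num, by norm_num⟩
    have A : ‖∑ k ∈ Finset.range n, d k * (x * (1 - r k))‖ ≤ 2 * (√n * ‖x‖) := by
      rw [Finset.sum_range (fun k => d k * (x * (1 - r k)))]
      refine (norm_sum_mul_le _ _).trans (mul_le_mul ?_ (hrow _ fun k => (hb k).1).1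
        (Real.sqrt_nonneg _) zero_le_two)
      simp only [(hd _).star_eq]
      exact (Real.sqrt_le_sqrt hdsum).trans hs2
    have B : ‖∑ k ∈ Finset.range n, (1 - r k) * x * d k‖ ≤ 2 * (√n * ‖x‖) := by
      rw [Finset.sum_range (fun k => (1 - r k) * x * d k), mul_comm (2 : ℝ)]
      refine (norm_sum_mul_le _ _).trans (mul_le_mul (hrow _ fun k => (hb k).2).2 ?_
        (Real.sqrt_nonneg _) (by positivity))
      simp only [(hd _).star_eq]
      exact (Real.sqrt_le_sqrt hdsum).trans hs2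
    calc (n : ℝ)⁻¹ * _ ≤ (n : ℝ)⁻¹ * (2 * (√n * ‖x‖) + 2 * (√n * ‖x‖)) :=
          mul_le_mul_of_nonneg_left ((norm_sub_le _ _).trans (add_le_add A B)) (by positivity)
      _ = _ := by field_simp; ring
  choose g hg hgn using fun i => hsplit (e i)
  refine full_of_near (z := ∑ i, w i * g i * w' i)
    (Submodule.sum_mem _ fun i _ => mul_mem_twoSided (hg i) _ _) ?_
  rw [← hsum, ← Finset.sum_sub_distrib]
  refine lt_of_le_of_lt (norm_sum_le _ _) ?_
  have hK : K * (√n / n) < 1 := by
    have h1 : 0 < √(n : ℝ) := Real.sqrt_pos.2 (by exact_mod_cast hn0)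
    have h2 := Real.mul_self_sqrt (n.cast_nonneg (α := ℝ))
    have hK0 : 0 ≤ K := Finset.sum_nonneg fun i _ => by positivity
    rw [mul_div, div_lt_one (by exact_mod_cast hn0)]
    nlinarith
  calc _ ≤ ∑ i, 4 * (‖w i‖ * ‖e i‖ * ‖w' i‖) * (√n / n) := by
        refine Finset.sum_le_sum fun i _ => ?_
        rw [← sub_mul, ← mul_sub, he i]
        refine (norm_mul_le _ _).trans ?_
        calc ‖w i * ((T * e i - e i * T) - g i)‖ * ‖w' i‖
            ≤ ‖w i‖ * (4 * ‖e i‖ * (√n / n)) * ‖w' i‖ :=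
              mul_le_mul_of_nonneg_right ((norm_mul_le _ _).trans
                (mul_le_mul_of_nonneg_left (hgn i) (norm_nonneg _))) (norm_nonneg _)
          _ = _ := by ring
    _ = K * (√n / n) := (Finset.sum_mul _ _ _).symm
    _ < 1 := hK

end Vale.P101
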