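import Vale.Agent.P101.Basic

/-!
# P101: commuting copies of finitely generated star subalgebras

`CopyProp E` says that a finitely generated unital star subalgebra of `E` can be mapped back into `E`
commuting with any prescribed finite set. From it we get finitely many pairwise commuting copies and
the product map `prodMap` of such a family.
-/

namespace Vale.P101

/-- The unital star subalgebra generated by a finite family of elements. -/
abbrev gen {E : Type*} [CStarAlgebra E] (s : Set E) : StarSubalgebra ℂ E := StarAlgebra.adjoin ℂ s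

/-- Finitely generated star subalgebras have copies commuting with prescribed finite sets. -/
def CopyProp (E : Type*) [CStarAlgebra E] : Prop :=
  ∀ s t : Set E, s.Finite → t.Finite → ∃ ρ : gen s →⋆ₐ[ℂ] E, ∀ b, ∀ c ∈ t, Commute (ρ b) c

section

variable {E : Type*} [CStarAlgebra E]

/-- Commutation with generators and their adjoints passes to the generated star algebra. -/
theorem commute_range_of_gen {s : Set E} (ρ : gen s →⋆ₐ[ℂ] E) {x : E}
    (h : ∀ b : gen s, (b : E) ∈ s → Commute x (ρ b) ∧ Commute x (star (ρ b))) (b : gen s) :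
    Commute x (ρ b) := by
  suffices Commute x (ρ b) ∧ Commute x (star (ρ b)) from this.1
  obtain ⟨b, hb⟩ := b
  induction hb using StarAlgebra.adjoin_induction with
  | mem y hy => exact h ⟨y, _⟩ hy
  | algebraMap c =>
    rw [show (⟨_, _⟩ : gen s) = algebraMap ℂ (gen s) c from rfl, AlgHomClass.commutes,
      ← algebraMap_star_comm]
    exact ⟨(Algebra.commutes c x).symm, (Algebra.commutes _ x).symm⟩
  | add y z hy hz ihy ihz =>
    rw [show (⟨y + z, _⟩ : gen s) = ⟨y, hy⟩ + ⟨z, hz⟩ from rfl, map_add, star_add]
    exact ⟨ihy.1.add_right ihz.1, ihy.2.add_right ihz.2⟩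
  | mul y z hy hz ihy ihz =>
    rw [show (⟨y * z, _⟩ : gen s) = ⟨y, hy⟩ * ⟨z, hz⟩ from rfl, map_mul, star_mul]
    exact ⟨ihy.1.mul_right ihz.1, ihz.2.mul_right ihy.2⟩
  | star y hy ih =>
    rw [show (⟨star y, _⟩ : gen s) = star ⟨y, hy⟩ from rfl, map_star, star_star]
    exact ⟨ih.2, ih.1⟩

/-- Finitely many pairwise commuting copies. -/
theorem CopyProp.exists_family (hE : CopyProp E) {s : Set E} (hs : s.Finite) (n : ℕ) :
    ∃ ρ : Fin n → (gen s →⋆ₐ[ℂ] E),
      Pairwise fun i j => ∀ b c, Commute (ρ i b) (ρ j c) := by
  classical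
  induction n with
  | zero => exact ⟨Fin.elim0, fun i => i.elim0⟩
  | succ n ih =>
    obtain ⟨ρ, hρ⟩ := ih
    let pre : Set (gen s) := {b | (b : E) ∈ s}
    have hpre : pre.Finite := hs.preimage (Subtype.val_injective.injOn)
    let t : Set E := ⋃ i, (fun b => ρ i b) '' pre ∪ (fun b => star (ρ i b)) '' pre
    have ht : t.Finite := Set.finite_iUnion fun i => (hpre.image _).union (hpre.image _)
    obtain ⟨σ, hσ⟩ := hE s t hs ht
    have key : ∀ i b c, Commute (σ b) (ρ i c) := fun i b c =>
      commute_range_of_gen (ρ i) (fun d hd =>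
        ⟨hσ b _ (Set.mem_iUnion.2 ⟨i, Or.inl ⟨d, hd, rfl⟩⟩),
          hσ b _ (Set.mem_iUnion.2 ⟨i, Or.inr ⟨d, hd, rfl⟩⟩)⟩) c
    refine ⟨Fin.cons σ ρ, fun i j hij b c => ?_⟩
    induction i using Fin.cases with
    | zero =>
      induction j using Fin.cases with
      | zero => exact absurd rfl hij
      | succ j => simpa using key j b c
    | succ i =>
      induction j using Fin.cases with
      | zero => simpa using (key i c b).symm
      | succ j => simpa using hρ (fun h => hij (by rw [h])) b c

/-- Pairwise commuting copies indexed by an arbitrary finite type. -/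
theorem CopyProp.exists_copies (hE : CopyProp E) {s : Set E} (hs : s.Finite)
    (ι : Type*) [Fintype ι] :
    ∃ ρ : ι → (gen s →⋆ₐ[ℂ] E), Pairwise fun i j => ∀ b c, Commute (ρ i b) (ρ j c) := by
  obtain ⟨ρ, hρ⟩ := hE.exists_family hs (Fintype.card ι)
  exact ⟨fun i => ρ (Fintype.equivFin ι i), fun i j hij => hρ (by simpa using hij)⟩

end

/-! ## The product map of a commuting family -/

section Prod

variable {ι B E : Type*} [Fintype ι] [Ring B] [Algebra ℂ B] [StarRing B] [CStarAlgebra E]
  (ρ : ι → (B →⋆ₐ[ℂ] E)) (hρ : Pairwise fun i j => ∀ b c, Commute (ρ i b) (ρ j c))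

/-- `f ↦ ∏ i, ρ i (f i)`, a monoid homomorphism from `ι → B` to `E`. -/
noncomputable def prodMap : (ι → B) →* E :=
  MonoidHom.noncommPiCoprod (fun i => (ρ i : B →* E)) hρ

theorem prodMap_mulSingle [DecidableEq ι] (i : ι) (b : B) :
    prodMap ρ hρ (Pi.mulSingle i b) = ρ i b :=
  MonoidHom.noncommPiCoprod_mulSingle _ _ _

theorem prodMap_apply (f : ι → B) :
    prodMap ρ hρ f = Finset.univ.noncommProd (fun i => ρ i (f i))
      (fun i _ j _ h => hρ h _ _) :=
  MonoidHom.noncommPiCoprod_apply _ _

theorem prodMap_eq_mul [DecidableEq ι] (f : ι → B) (i : ι) :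
    prodMap ρ hρ f = ρ i (f i) * prodMap ρ hρ (Function.update f i 1) := by
  rw [← prodMap_mulSingle ρ hρ i, ← map_mul]
  congr 1
  funext j
  by_cases h : j = i
  · subst h; simp
  · simp [h]

theorem prodMap_eq_zero (f : ι → B) (i : ι) (h : f i = 0) : prodMap ρ hρ f = 0 := by
  classical
  rw [prodMap_eq_mul ρ hρ f i, h, map_zero, zero_mul]

theorem commute_prodMap {x : E} (f : ι → B) (h : ∀ i, Commute x (ρ i (f i))) :
    Commute x (prodMap ρ hρ f) := by
  rw [prodMap_apply]
  exact Finset.noncommProd_commute _ _ _ _ fun i _ => h i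

theorem star_noncommProd {γ M : Type*} [Monoid M] [StarMul M] (s : Finset γ) (g : γ → M)
    (h₁ : (s : Set γ).Pairwise fun i j => Commute (g i) (g j))
    (h₂ : (s : Set γ).Pairwise fun i j => Commute (star (g i)) (star (g j))) :
    star (s.noncommProd g h₁) = s.noncommProd (fun i => star (g i)) h₂ := by
  classical
  induction s using Finset.induction_on with
  | empty => simp
  | insert a s ha ih =>
    rw [Finset.noncommProd_insert_of_notMem _ _ _ _ ha,
      Finset.noncommProd_insert_of_notMem' _ _ _ _ ha, star_mul, ih]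

theorem star_prodMap (f : ι → B) : star (prodMap ρ hρ f) = prodMap ρ hρ (star f) := by
  rw [prodMap_apply, prodMap_apply]
  refine Eq.trans (star_noncommProd Finset.univ (fun i => ρ i (f i)) _
    (fun i _ j _ h => (hρ h (f i) (f j)).star_star)) ?_
  exact Finset.noncommProd_congr rfl (fun i _ => (map_star (ρ i) (f i)).symm) _

/-- The product map is multilinear: products of sums expand. -/
theorem prodMap_sum {κ : Type*} [Fintype κ] [DecidableEq ι] (e : ι → κ → B) :
    prodMap ρ hρ (fun i => ∑ t, e i t) = ∑ τ : ι → κ, prodMap ρ hρ (fun i => e i (τ i)) := by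
  classical
  have key : ∀ s : Finset ι,
      prodMap ρ hρ (fun i => if i ∈ s then ∑ t, e i t else 1) =
        ∑ τ : (i : {i // i ∈ s}) → κ,
          prodMap ρ hρ (fun i => if h : i ∈ s then e i (τ ⟨i, h⟩) else 1) := by
    intro s
    induction s using Finset.induction_on with
    | empty => simp
    | insert a s ha ih =>
      have hl : (fun i => if i ∈ insert a s then ∑ t, e i t else (1 : B)) =
          Pi.mulSingle a (∑ t, e a t) * fun i => if i ∈ s then ∑ t, e i t else 1 := by
        funext i
        by_cases h : i = a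
        · subst h; simp [ha]
        · simp [h]
      rw [hl, map_mul, prodMap_mulSingle, map_sum, ih, Finset.sum_mul_sum,
        ← Fintype.sum_prod_type']
      refine Fintype.sum_equiv ?_ _ _ ?_
      · exact
          { toFun := fun p i => if h : (i : ι) = a then p.1
              else p.2 ⟨i, (Finset.mem_insert.1 i.2).resolve_left h⟩
            invFun := fun τ => (τ ⟨a, by simp⟩, fun i => τ ⟨i, by simp⟩)
            left_inv := fun p => by
              refine Prod.ext (by simp) ?_
              funext i
              have : (i : ι) ≠ a := fun h => ha (h ▸ i.2)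
              simp [this]
            right_inv := fun τ => by
              funext ⟨i, hi⟩
              by_cases h : i = a
              · subst h; simp
              · simp [h] }
      · rintro ⟨t, τ⟩
        rw [← prodMap_mulSingle ρ hρ a, ← map_mul]
        congr 1
        funext i
        by_cases h : i = a
        · subst h; simp [ha]
        · simp [h]
  have h := key Finset.univ
  simp only [Finset.mem_univ, if_true, dite_true] at h
  rw [h]
  exact Fintype.sum_equiv (Equiv.piCongrLeft (fun _ : ι => κ)
    (Equiv.subtypeUnivEquiv Finset.mem_univ)) _ _ (fun τ => rfl)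

end Prod

end Vale.P101
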