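import Vale.Agent.P101.SquareZero

/-!
# P101: gluing commuting order-zero cones and the adaptive tree

From commuting copies of the witness we get `x`, `v` with `x * x = 0`,
`star v * v = 1 - (star x * x + x * star x)` and `x * star x * v = v`, the Rørdam-Winter relations
of the dimension drop algebra `Z(2,3)`.
-/

namespace Vale.P101

variable {E : Type*} [CStarAlgebra E]

/-- The phase function. -/
noncomputable def theta (u : ℝ) : ℝ := Real.pi * clampI (2 * u)

theorem continuous_theta : Continuous theta :=
  continuous_const.mul (continuous_clampI.comp (by fun_prop))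

theorem phi_mul_cos (u : ℝ) : phi u * Real.cos (theta u) = -phi u := by
  rcases le_total u (1 / 2) with h | h
  · simp [phi, show gam u = 0 from clampI_of_nonpos (by linarith)]
  · simp [theta, clampI_of_one_le (show 1 ≤ 2 * u by linarith)]

theorem phi_mul_sin (u : ℝ) : phi u * Real.sin (theta u) = 0 := by
  rcases le_total u (1 / 2) with h | h
  · simp [phi, show gam u = 0 from clampI_of_nonpos (by linarith)]
  · simp [theta, clampI_of_one_le (show 1 ≤ 2 * u by linarith)]

/-- Two anticommuting square-zero elements add to a square-zero element. -/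
theorem glue_algebra {A U q : E} (hA : A * A = 0) (hq : q * q = 0) (h1 : U * A = A) (h2 : A * U = -A)
    (h3 : star U * A = A) (h4 : A * star U = -A) (hU : star U * U = 1) (hU' : U * star U = 1)
    (hAq : Commute A q) (hAq' : Commute A (star q)) (hUq : Commute U q)
    (hUq' : Commute U (star q)) :
    (A + U * q) * (A + U * q) = 0 ∧
      star (A + U * q) * (A + U * q) + (A + U * q) * star (A + U * q) =
        (star A * A + A * star A) + (star q * q + q * star q) := by
  have g1 : star A * U = star A := by simpa [star_mul] using congrArg star h3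
  have g2 : U * star A = -star A := by simpa [star_mul] using congrArg star h4
  have hsA : Commute (star A) q := by simpa using hAq'.star_star
  have hsUq : Commute (star U) q := by simpa using hUq'.star_star
  have hsUq' : Commute (star U) (star q) := hUq.star_star
  constructor
  · calc (A + U * q) * (A + U * q)
        = A * A + (A * U) * q + U * (q * A) + U * (q * U) * q := by noncomm_ring
      _ = A * A + (A * U) * q + (U * A) * q + U * U * (q * q) := by
          rw [← hAq.eq, ← hUq.eq]; noncomm_ring
      _ = 0 := by rw [hA, hq, h1, h2]; noncomm_ring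
  · have c1 : star A * (U * q) + (U * q) * star A = 0 := by
      rw [← mul_assoc, mul_assoc U q, ← hsA.eq, ← mul_assoc, g1, g2]; noncomm_ring
    have c2 : star (U * q) * A + A * star (U * q) = 0 := by
      rw [star_mul, mul_assoc, h3, ← mul_assoc, hAq'.eq, mul_assoc, h4]; noncomm_ring
    have c3 : star (U * q) * (U * q) = star q * q := by
      rw [star_mul, mul_assoc, ← mul_assoc (star U) U, hU, one_mul]
    have c4 : (U * q) * star (U * q) = q * star q := by
      rw [star_mul, hUq.eq, mul_assoc, ← mul_assoc U, hUq'.eq, mul_assoc, hU', mul_one]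
    calc star (A + U * q) * (A + U * q) + (A + U * q) * star (A + U * q)
        = (star A * A + A * star A) + (star (U * q) * (U * q) + (U * q) * star (U * q)) +
          ((star A * (U * q) + (U * q) * star A) + (star (U * q) * A + A * star (U * q))) := by
            rw [star_add]; noncomm_ring
      _ = _ := by rw [c1, c2, c3, c4]; abel

/-- One gluing step. -/
theorem glue {x r y R : E} (hx : x * x = 0) (hy : y * y = 0) (hxy : Commute x y)
    (hxy' : Commute x (star y)) (hxR : Commute x R) (_hrsa : IsSelfAdjoint r)
    (hRsa : IsSelfAdjoint R) (hr : r * r = 1 - (star x * x + x * star x))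
    (hR : R * R = 1 - (star y * y + y * star y)) :
    ∃ x' r' : E, x' * x' = 0 ∧ IsSelfAdjoint r' ∧
      r' * r' = 1 - (star x' * x' + x' * star x') ∧
      (∀ w, Commute w x → Commute w (star x) → Commute w y → Commute w (star y) → Commute w R →
        Commute w x' ∧ Commute w (star x') ∧ Commute w r') ∧
      (∀ g, Commute g R → r * g = r → r' * g = r') ∧ (∀ g, R * g = R → r' * g = r') := by
  set h := star x * x + x * star x with hh
  set P := star x * x with hP
  have hhsa : IsSelfAdjoint h := (IsSelfAdjoint.star_mul_self _).add (IsSelfAdjoint.mul_star_self _)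
  have hPsa : IsSelfAdjoint P := IsSelfAdjoint.star_mul_self _
  have hPh : Commute P h := by
    show P * h = h * P
    have e1 : star x * x * (x * star x) = 0 := by
      rw [mul_assoc, ← mul_assoc x x, hx]; simp
    have e2 : x * star x * (star x * x) = 0 := by
      rw [mul_assoc, ← mul_assoc (star x) (star x), ← star_mul, hx]; simp
    rw [hh, hP, mul_add, add_mul, e1, e2]
  have hxh : Commute x h := commute_sum_sq hx
  let cC : ℝ → ℝ := fun u => Real.cos (theta u)
  let sS : ℝ → ℝ := fun u => Real.sin (theta u)
  have hc : Continuous cC := Real.continuous_cos.comp continuous_theta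
  have hs : Continuous sS := Real.continuous_sin.comp continuous_theta
  let f : ℝ → ℝ := fun u => √(1 - gam u)
  have hf : Continuous f := Real.continuous_sqrt.comp (continuous_const.sub continuous_gam)
  set C := cfc cC P with hC
  set S := cfc sS P with hS
  set F := cfc f h with hF
  set U := C + Complex.I • S with hU
  set A := x * cfc phi h with hA
  set q := F * y with hq
  have hCsa : star C = C := (cfc_predicate (p := IsSelfAdjoint) cC P).star_eq
  have hSsa : star S = S := (cfc_predicate (p := IsSelfAdjoint) sS P).star_eq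
  have hFsa : star F = F := (cfc_predicate (p := IsSelfAdjoint) f h).star_eq
  have hsU : star U = C - Complex.I • S := by
    rw [hU, star_add, star_smul, hCsa, hSsa, Complex.star_def, Complex.conj_I, neg_smul,
      sub_eq_add_neg]
  -- `U` fixes `x` from the left and negates `A` from the right
  have hPx : P * x = (0 : ℝ) • x := by rw [hP, mul_assoc, hx]; simp
  have hCx : C * x = x := by
    rw [hC, cfc_mul_of_eigen hPsa hPx hc]; simp [cC, theta, clampI_of_nonpos]
  have hSx : S * x = 0 := by
    rw [hS, cfc_mul_of_eigen hPsa hPx hs]; simp [sS, theta, clampI_of_nonpos]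
  have hxphi : x * cfc phi h = x * cfc phi P := by
    rw [intertwine_cfc hhsa (IsSelfAdjoint.mul_star_self x) (by
        rw [hh, mul_add, ← mul_assoc x x, hx, zero_mul, add_zero, ← mul_assoc]) continuous_phi,
      intertwine_cfc hPsa (IsSelfAdjoint.mul_star_self x) (by rw [hP, ← mul_assoc])
        continuous_phi]
  have hAC : A * C = -A := by
    rw [hA, hxphi, hC, mul_assoc, ← cfc_mul _ _ P continuous_phi.continuousOn hc.continuousOn,
      ← mul_neg, ← cfc_neg]
    exact congrArg (x * ·) (cfc_congr fun u _ => phi_mul_cos u)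
  have hAS : A * S = 0 := by
    rw [hA, hxphi, hS, mul_assoc, ← cfc_mul _ _ P continuous_phi.continuousOn hs.continuousOn,
      cfc_congr (g := fun _ => (0 : ℝ)) fun u _ => phi_mul_sin u, cfc_const_zero ℝ P, mul_zero]
  have h1 : U * A = A := by
    rw [hU, hA, ← mul_assoc, add_mul, smul_mul_assoc, hCx, hSx, smul_zero, add_zero]
  have h3 : star U * A = A := by
    rw [hsU, hA, ← mul_assoc, sub_mul, smul_mul_assoc, hCx, hSx, smul_zero, sub_zero]
  have h2 : A * U = -A := by rw [hU, mul_add, mul_smul_comm, hAC, hAS, smul_zero, add_zero]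
  have h4 : A * star U = -A := by
    rw [hsU, mul_sub, mul_smul_comm, hAC, hAS, smul_zero, sub_zero]
  have hCS : C * S = S * C := cfc_commute_cfc cC sS P
  have hsq : C * C + S * S = 1 := by
    rw [hC, hS, ← cfc_mul _ _ P hc.continuousOn hc.continuousOn,
      ← cfc_mul _ _ P hs.continuousOn hs.continuousOn,
      ← cfc_add P (fun u => cC u * cC u) (fun u => sS u * sS u) (hc.mul hc).continuousOn
        (hs.mul hs).continuousOn, ← cfc_const_one ℝ P]
    exact cfc_congr fun u _ => by
      simp only [cC, sS]; rw [← sq, ← sq]; exact Real.cos_sq_add_sin_sq _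
  have hUU : star U * U = 1 ∧ U * star U = 1 := by
    rw [hsU, hU]
    constructor
    · rw [mul_add, sub_mul, sub_mul, smul_mul_assoc, smul_mul_assoc, mul_smul_comm, mul_smul_comm,
        smul_smul, Complex.I_mul_I, hCS, ← hsq]
      module
    · rw [add_mul, mul_sub, mul_sub, smul_mul_assoc, smul_mul_assoc, mul_smul_comm, mul_smul_comm,
        smul_smul, Complex.I_mul_I, hCS, ← hsq]
      module
  -- commutation
  have hgen : ∀ w, Commute w x → Commute w (star x) → Commute w U ∧ Commute w F ∧ Commute w A := by
    intro w w1 w2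
    have wP : Commute P w := (w2.mul_right w1).symm
    have wh : Commute h w := ((w2.mul_right w1).add_right (w1.mul_right w2)).symm
    exact ⟨(wP.cfc_real cC).symm.add_right ((wP.cfc_real sS).symm.smul_right _),
      (wh.cfc_real f).symm, w1.mul_right (wh.cfc_real phi).symm⟩
  have hyx : Commute y (star x) := by simpa using hxy'.symm.star_star
  have hyx' : Commute (star y) (star x) := hxy.symm.star_star
  have hRx' : Commute R (star x) := by
    have := hxR.symm.star_star; rwa [hRsa.star_eq] at this
  obtain ⟨yU, yF, yA⟩ := hgen y hxy.symm hyx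
  obtain ⟨y'U, y'F, y'A⟩ := hgen (star y) hxy'.symm hyx'
  obtain ⟨-, RF, -⟩ := hgen R hxR.symm hRx'
  have hFA : Commute F A :=
    ((hxh.symm.cfc_real f)).mul_right ((cfc_commute_cfc f phi h))
  have hFU : Commute F U := by
    have hFC : ∀ k : ℝ → ℝ, Commute F (cfc k P) := fun k =>
      ((hPh.cfc_real k).symm).cfc_real f
    exact (hFC cC).add_right ((hFC sS).smul_right _)
  have hqq : q * q = 0 := by
    rw [hq, mul_assoc, ← mul_assoc y, yF.eq, mul_assoc, hy]; simp
  have hsq' : star q = star y * F := by rw [hq, star_mul, hFsa]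
  obtain ⟨hx', hsum⟩ := glue_algebra (A := A) (U := U) (q := q)
    (by rw [hA, mul_assoc, ← mul_assoc (cfc phi h), (hxh.symm.cfc_real phi).eq, mul_assoc,
      ← mul_assoc x x, hx]; simp)
    hqq h1 h2 h3 h4 hUU.1 hUU.2 (hFA.symm.mul_right yA.symm)
    (hsq' ▸ y'A.symm.mul_right hFA.symm) (hFU.symm.mul_right yU.symm)
    (hsq' ▸ y'U.symm.mul_right hFU.symm)
  refine ⟨A + U * q, F * R, hx', ?_, ?_, ?_, ?_, ?_⟩
  · exact (IsSelfAdjoint.commute_iff (cfc_predicate _ _) hRsa).1 RF.symm
  · rw [hsum]
    have e1 : star A * A + A * star A = cfc gam h := by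
      have hcx : Commute (cfc phi h) x := hxh.symm.cfc_real phi
      have hcx' : Commute (cfc phi h) (star x) := by
        have := hcx.star_star; rwa [(cfc_predicate (p := IsSelfAdjoint) phi h).star_eq] at this
      have : A * star A = cfc phi h * (x * star x) * cfc phi h := by
        rw [hA, star_mul, (cfc_predicate (p := IsSelfAdjoint) phi h).star_eq, hcx'.eq, ← hcx.eq]
        simp only [mul_assoc]
      rw [this, hA, star_mul, (cfc_predicate (p := IsSelfAdjoint) phi h).star_eq,
        show cfc phi h * star x * (x * cfc phi h) = cfc phi h * (star x * x) * cfc phi h by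
          noncomm_ring, ← add_mul, ← mul_add, ← hh, cfc_sandwich hhsa continuous_phi]
      exact cfc_congr fun u _ => phi_mul_self u
    have e2 : star q * q + q * star q = F * F * (1 - R * R) := by
      rw [hsq', hq, show star y * F * (F * y) = star y * (F * F) * y by noncomm_ring,
        show F * y * (star y * F) = F * (y * star y * F) by noncomm_ring,
        (y'F.mul_right y'F).eq, (yF.mul_left y'F).eq, hR, sub_sub_cancel]
      noncomm_ring
    have e3 : cfc gam h + F * F = 1 := by
      rw [hF, ← cfc_mul _ _ h hf.continuousOn hf.continuousOn,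
        ← cfc_add h gam (fun u => f u * f u) continuous_gam.continuousOn (hf.mul hf).continuousOn, ← cfc_const_one ℝ h]
      exact cfc_congr fun u _ => by
        simp only [f]; rw [Real.mul_self_sqrt (sub_nonneg.2 (show gam u ≤ 1 from clampI_le_one _))]; ring
    rw [e1, e2, show F * R * (F * R) = F * (R * F) * R by noncomm_ring, RF.eq,
      eq_sub_of_add_eq e3]
    noncomm_ring
  · intro w w1 w2 w3 w4 w5
    obtain ⟨wU, wF, wA⟩ := hgen w w1 w2
    obtain ⟨vU, vF, vA⟩ := hgen (star w) (by simpa using w2.star_star) w1.star_star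
    have v3 : Commute (star w) y := by simpa using w4.star_star
    refine ⟨wA.add_right (wU.mul_right (wF.mul_right w3)), ?_, wF.mul_right w5⟩
    have := (vA.add_right (vU.mul_right (vF.mul_right v3))).star_star
    rwa [star_star] at this
  · intro g hgR hg
    have hh1 : h * (1 - g) = (1 : ℝ) • (1 - g) := by
      rw [one_smul, show h = 1 - r * r by rw [hr]; abel, sub_mul, one_mul, mul_assoc, mul_sub,
        mul_one, hg, sub_self, mul_zero, sub_zero]
    have : F * (1 - g) = 0 := by
      rw [hF, cfc_mul_of_eigen hhsa hh1 hf]; simp [f, gam_one]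
    calc F * R * g = F * (g * R) := by rw [mul_assoc, hgR.eq]
      _ = F * R - F * (1 - g) * R := by noncomm_ring
      _ = F * R := by rw [this]; simp
  · intro g hg
    rw [mul_assoc, hg]

/-! ## The adaptive tree -/

/-- A node of the tree: a word of length at most `m` in `Fin m`. -/
abbrev Node (m : ℕ) := (j : Fin (m + 1)) × (Fin j → Fin m)

/-- The node of a leaf word at depth `j`. -/
def nodeAt {m : ℕ} (w : Fin (m + 1) → Fin m) (j : Fin (m + 1)) : Node m :=
  ⟨j, fun i => w ⟨i, i.2.trans j.2⟩⟩

/-- Whether a node lies on the path of a leaf word. -/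
def OnPath {m : ℕ} (w : Fin (m + 1) → Fin m) (u : Node m) : Prop :=
  ∀ i : Fin u.1, u.2 i = w ⟨i, i.2.trans u.1.2⟩

instance {m : ℕ} (w : Fin (m + 1) → Fin m) (u : Node m) : Decidable (OnPath w u) :=
  inferInstanceAs (Decidable (∀ _, _))

theorem existsUnique_path {m : ℕ} (τ : Node m → Fin m) :
    ∃! w : Fin (m + 1) → Fin m, ∀ j, w j = τ (nodeAt w j) := by
  have key : ∀ k : ℕ, k ≤ m + 1 → ∃! w : Fin k → Fin m, ∀ (j : Fin k) (hj : (j : ℕ) < m + 1),
      w j = τ ⟨⟨j, hj⟩, fun i => w ⟨i, i.2.trans j.2⟩⟩ := by
    intro k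
    induction k with
    | zero => exact fun _ => ⟨Fin.elim0, fun j => j.elim0, fun w _ => funext fun j => j.elim0⟩
    | succ k ih =>
      intro hk
      obtain ⟨w, hw, hu⟩ := ih (by omega)
      have hk' : k < m + 1 := hk
      refine ⟨Fin.snoc w (τ ⟨⟨k, hk'⟩, w⟩), fun j hj => ?_, fun w' hw' => ?_⟩
      · induction j using Fin.lastCases with
        | last =>
          rw [Fin.snoc_last]
          congr 2
          funext i
          exact (Fin.snoc_castSucc (α := fun _ => Fin m) _ w i).symm
        | cast j =>
          rw [Fin.snoc_castSucc, hw j hj]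
          congr 2
          funext i
          exact (Fin.snoc_castSucc (α := fun _ => Fin m) _ w ⟨i, i.2.trans j.2⟩).symm
      · have e : (fun i => w' (Fin.castSucc i)) = w := hu _ fun j hj => hw' (Fin.castSucc j) hj
        funext j
        induction j using Fin.lastCases with
        | last => rw [Fin.snoc_last, hw' (Fin.last k) hk', ← e]; rfl
        | cast j => rw [Fin.snoc_castSucc, ← e]
  obtain ⟨w, hw, hu⟩ := key (m + 1) le_rfl
  exact ⟨w, fun j => hw j j.2, fun w' hw' => hu w' fun j _ => hw' j⟩

theorem not_onPath_of_ne {m : ℕ} {w w' : Fin (m + 1) → Fin m} {i j : Fin (m + 1)} (hij : i < j)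
    (h : w i ≠ w' i) : ¬ OnPath w' (nodeAt w j) := fun hp => h (hp ⟨i, hij⟩)

theorem onPath_nodeAt {m : ℕ} (w : Fin (m + 1) → Fin m) (j : Fin (m + 1)) :
    OnPath w (nodeAt w j) := fun _ => rfl

theorem eq_nodeAt_of_onPath {m : ℕ} {w : Fin (m + 1) → Fin m} {u : Node m} (h : OnPath w u) :
    u = nodeAt w u.1 := by
  obtain ⟨j, f⟩ := u
  simp only [nodeAt, Sigma.mk.injEq, heq_eq_eq, true_and]
  exact funext h

theorem root_onPath {m : ℕ} (w : Fin (m + 1) → Fin m) {u : Node m} (h : (u.1 : ℕ) = 0) :
    OnPath w u := fun i => absurd i.2 (by omega)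

variable {ι B : Type*} [Fintype ι] [Ring B] [Algebra ℂ B] [StarRing B]
  (ρ : ι → (B →⋆ₐ[ℂ] E)) (hρ : Pairwise fun i j => ∀ b c, Commute (ρ i b) (ρ j c))

theorem prodMap_absorb {r : E} (f : ι → B) (h : ∀ i, ρ i (f i) * r = r) :
    prodMap ρ hρ f * r = r := by
  classical
  rw [prodMap_apply]
  refine Finset.noncommProd_induction Finset.univ _ _ (fun a => a * r = r) ?_ (one_mul r)
    (fun i _ => h i)
  intro a b ha hb
  rw [mul_assoc, hb, ha]

omit [Fintype ι] in
include hρ in
/-- Chain of gluings over a finite set of copies. -/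
theorem exists_glue [DecidableEq ι] (Y R G : B) (hY : Y * Y = 0) (hR : IsSelfAdjoint R)
    (hRR : R * R = 1 - (star Y * Y + Y * star Y)) (hRG : R * G = R) (S : Finset ι) :
    ∃ x r : E, x * x = 0 ∧ IsSelfAdjoint r ∧ r * r = 1 - (star x * x + x * star x) ∧
      (∀ w, (∀ i ∈ S, ∀ b, Commute w (ρ i b)) →
        Commute w x ∧ Commute w (star x) ∧ Commute w r) ∧
      ∀ i ∈ S, r * ρ i G = r := by
  induction S using Finset.induction_on with
  | empty => exact ⟨0, 1, by simp, IsSelfAdjoint.one E, by simp, fun w _ => ⟨Commute.zero_right w,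
      by simp, Commute.one_right w⟩, by simp⟩
  | insert a S ha ih =>
    obtain ⟨x, r, hx, hr, hrr, hcom, hg⟩ := ih
    have hca : ∀ b, Commute (ρ a b) x ∧ Commute (ρ a b) (star x) ∧ Commute (ρ a b) r := fun b =>
      hcom _ fun i hi c => hρ (show a ≠ i from fun h => ha (h ▸ hi)) b c
    obtain ⟨x', r', hx', hr', hrr', hcom', hg', hgR⟩ := glue hx
      (y := ρ a Y) (R := ρ a R) (by rw [← map_mul, hY, map_zero]) (hca Y).1.symm
      (by rw [← map_star]; exact (hca _).1.symm) (hca R).1.symm hr (hR.map _) hrr
      (by rw [← map_mul, hRR]; simp [map_star])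
    refine ⟨x', r', hx', hr', hrr', fun w hw => ?_, fun i hi => ?_⟩
    · obtain ⟨w1, w2, w3⟩ := hcom w fun i hi => hw i (Finset.mem_insert_of_mem hi)
      have hwa := hw a (Finset.mem_insert_self a S)
      exact hcom' w w1 w2 (hwa Y) (by rw [← map_star]; exact hwa _) (hwa R)
    · rcases Finset.mem_insert.1 hi with rfl | hi
      · exact hgR _ (by rw [← map_mul, hRG])
      · exact hg' _ (hρ (show i ≠ a from fun h => ha (h ▸ hi)) G R) (hg i hi)

/-- The Rørdam-Winter relations for `Z(2,3)` in an algebra with the copy property. -/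
theorem exists_relations (hE : CopyProp E) (hc : Full (commSet E)) :
    ∃ x v : E, x * x = 0 ∧ star v * v = 1 - (star x * x + x * star x) ∧ x * star x * v = v := by
  classical
  obtain ⟨m, y, R, g, z, hy, hR, hg, hRR, hRg, hz, hsum⟩ := exists_witness hE hc
  rcases Nat.eq_zero_or_pos m with rfl | hm
  · have : Subsingleton E := subsingleton_of_zero_eq_one (by simpa using hsum)
    exact ⟨0, 0, Subsingleton.elim _ _, Subsingleton.elim _ _, Subsingleton.elim _ _⟩
  let s : Set E := {y, R, g} ∪ Set.range z
  have hs : s.Finite := by simp [s, Set.finite_range]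
  let Y : gen s := ⟨y, StarAlgebra.subset_adjoin ℂ s (by simp [s])⟩
  let Rb : gen s := ⟨R, StarAlgebra.subset_adjoin ℂ s (by simp [s])⟩
  let G : gen s := ⟨g, StarAlgebra.subset_adjoin ℂ s (by simp [s])⟩
  let Z : Fin m → gen s := fun l => ⟨z l, StarAlgebra.subset_adjoin ℂ s (by simp [s])⟩
  have hY : Y * Y = 0 := Subtype.ext hy
  have hRb : IsSelfAdjoint Rb := Subtype.ext hR
  have hGsa : star G = G := Subtype.ext hg
  have hRR' : Rb * Rb = 1 - (star Y * Y + Y * star Y) := Subtype.ext hRR
  have hRG : Rb * G = Rb := Subtype.ext hRg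
  have hYYZ : ∀ l, Y * star Y * Z l = Z l := fun l => Subtype.ext (hz l).1
  have hGZ : ∀ l, G * Z l = 0 := fun l => Subtype.ext (hz l).2.1
  have hGYZ : ∀ l, G * (star Y * Z l) = 0 := fun l => Subtype.ext (hz l).2.2
  have hsumB : ∑ l, star (Z l) * Z l = 1 := by
    apply Subtype.ext
    simpa [AddSubmonoidClass.coe_finsetSum, Z] using hsum
  have hYZY : ∀ l l', star (star Y * Z l) * Z l' = 0 := fun l l' => by
    rw [star_mul, star_star, mul_assoc, ← hYYZ l',
      show Y * (Y * star Y * Z l') = Y * Y * (star Y * Z l') by simp only [mul_assoc], hY]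
    simp
  obtain ⟨ρ, hρ⟩ := hE.exists_copies hs (ι := Node m)
  let π := prodMap ρ hρ
  let root : Node m := ⟨⟨0, by omega⟩, Fin.elim0⟩
  have hroot : ∀ {u : Node m}, (u.1 : ℕ) = 0 → u = root := by
    rintro ⟨⟨j, hj⟩, f⟩ h
    simp only at h
    subst h
    simp only [root, Sigma.mk.injEq, heq_eq_eq, true_and]
    exact funext fun i => i.elim0
  let S : Finset (Node m) := Finset.univ.erase root
  obtain ⟨x, r, hx, hr, hrr, hcom, hG⟩ := exists_glue ρ hρ Y Rb G hY hRb hRR' hRG S
  -- leaf elements
  let F : (Fin (m + 1) → Fin m) → Node m → gen s := fun w u =>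
    if OnPath w u then
      if (u.1 : ℕ) = (w (Fin.last m) : ℕ) + 1 then star Y * Z (w u.1) else Z (w u.1)
    else G
  let Q : (Fin (m + 1) → Fin m) → Node m → gen s := fun w u =>
    if OnPath w u then star (Z (w u.1)) * Z (w u.1) else 1
  let T : E := ∑ w, π (F w)
  have hQ1 : ∑ w, π (Q w) = 1 := by
    calc ∑ w, π (Q w)
        = ∑ w, ∑ τ : Node m → Fin m,
            if (∀ j, w j = τ (nodeAt w j)) then π (fun u => star (Z (τ u)) * Z (τ u)) else 0 := by
          refine Finset.sum_congr rfl fun w _ => ?_
          rw [show Q w = fun u => ∑ t, if OnPath w u ∧ t ≠ w u.1 then 0 else star (Z t) * Z t by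
            funext u
            by_cases hu : OnPath w u
            · simp [Q, hu]
            · simp [Q, hu, hsumB],
            prodMap_sum ρ hρ (fun u t => if OnPath w u ∧ t ≠ w u.1 then 0 else star (Z t) * Z t)]
          refine Finset.sum_congr rfl fun τ _ => ?_
          split_ifs with hτ
          · congr 1
            funext u
            rw [if_neg]
            rintro ⟨hu, hne⟩
            exact hne (by rw [hτ u.1, ← eq_nodeAt_of_onPath hu])
          · simp only [not_forall] at hτ
            obtain ⟨j, hj⟩ := hτ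
            exact prodMap_eq_zero ρ hρ _ (nodeAt w j)
              (if_pos ⟨onPath_nodeAt w j, fun h => hj h.symm⟩)
      _ = ∑ τ : Node m → Fin m, π (fun u => star (Z (τ u)) * Z (τ u)) := by
          rw [Finset.sum_comm]
          refine Finset.sum_congr rfl fun τ _ => ?_
          obtain ⟨w, hw, hu⟩ := existsUnique_path τ
          rw [Finset.sum_eq_single w (fun w' _ h => if_neg fun h' => h (hu w' h'))
            (by simp), if_pos hw]
      _ = 1 := by
          rw [← prodMap_sum ρ hρ (fun _ t => star (Z t) * Z t), hsumB]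
          exact map_one π
  have hcross : ∀ w w', w ≠ w' → star (π (F w)) * π (F w') = 0 := by
    intro w w' hne
    rw [star_prodMap, ← map_mul]
    by_cases h : ∀ i : Fin (m + 1), i ≠ Fin.last m → w i = w' i
    · have hl : w (Fin.last m) ≠ w' (Fin.last m) := fun hl => hne (funext fun i =>
        if hi : i = Fin.last m then hi ▸ hl else h i hi)
      let j : Fin (m + 1) := ⟨(w (Fin.last m) : ℕ) + 1, by omega⟩
      have hp : OnPath w' (nodeAt w j) := fun i => h _ fun hi => by
        have := congrArg Fin.val hi
        have := i.2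
        simp only [nodeAt, Fin.val_last, j] at *
        omega
      refine prodMap_eq_zero ρ hρ _ (nodeAt w j) ?_
      have hne' : ¬ ((nodeAt w j).1 : ℕ) = (w' (Fin.last m) : ℕ) + 1 := fun hh =>
        hl (Fin.ext (by simpa [nodeAt, j] using hh))
      simp only [Pi.mul_apply, Pi.star_apply, F, if_pos (onPath_nodeAt w j), if_pos hp,
        if_neg hne', if_pos (show ((nodeAt w j).1 : ℕ) = (w (Fin.last m) : ℕ) + 1 from rfl)]
      exact hYZY _ _
    · simp only [not_forall] at h
      obtain ⟨i, hi, hwi⟩ := h
      have him : (i : ℕ) < m := lt_of_le_of_ne (Nat.lt_succ_iff.1 i.2) fun e => hi (Fin.ext e)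
      let j : Fin (m + 1) := ⟨(i : ℕ) + 1, by omega⟩
      refine prodMap_eq_zero ρ hρ _ (nodeAt w j) ?_
      simp only [Pi.mul_apply, Pi.star_apply, F, if_pos (onPath_nodeAt w j),
        if_neg (not_onPath_of_ne (j := j) (Nat.lt_succ_self (i : ℕ)) hwi)]
      rw [← star_star G, ← star_mul, hGsa]
      split_ifs <;> simp [hGZ, hGYZ]
  have hrG : ∀ u ∈ S, ρ u G * r = r := fun u hu => by
    have := congrArg star (hG u hu)
    rwa [star_mul, hr.star_eq, ← map_star, hGsa] at this
  have hdiag : ∀ w, star (π (F w)) * π (F w) * r = π (Q w) * r := by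
    intro w
    rw [star_prodMap, ← map_mul, show star (F w) * F w =
      Q w * fun u => if OnPath w u then 1 else G * G by
        funext u
        simp only [Pi.mul_apply, Pi.star_apply, F, Q]
        split_ifs with hu hs
        · rw [mul_one, star_mul, star_star, mul_assoc, ← mul_assoc Y, hYYZ]
        · rw [mul_one]
        · rw [one_mul, hGsa],
      map_mul, mul_assoc]
    have habs : prodMap ρ hρ (fun u => if OnPath w u then 1 else G * G) * r = r := by
      refine prodMap_absorb ρ hρ _ fun u => ?_
      by_cases hu : OnPath w u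
      · simp [hu]
      · have : u ∈ S := Finset.mem_erase.2 ⟨fun h => hu (root_onPath w (by simp [h, root])),
          Finset.mem_univ u⟩
        rw [if_neg hu, map_mul, mul_assoc, hrG u this, hrG u this]
    exact congrArg (π (Q w) * ·) habs
  have hTT : star T * T * r = r := by
    rw [star_sum, Finset.sum_mul_sum, Finset.sum_mul]
    calc ∑ w, (∑ w', star (π (F w)) * π (F w')) * r = ∑ w, π (Q w) * r := by
          refine Finset.sum_congr rfl fun w _ => ?_
          rw [Finset.sum_eq_single w (fun w' _ h => hcross w w' h.symm) (by simp), hdiag]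
      _ = r := by rw [← Finset.sum_mul, hQ1, one_mul]
  have hrT : r * T = 0 := by
    rw [Finset.mul_sum]
    refine Finset.sum_eq_zero fun w _ => ?_
    let u := nodeAt w ⟨1, by omega⟩
    have huS : u ∈ S := Finset.mem_erase.2 ⟨fun h => by
      have := congrArg (fun v : Node m => (v.1 : ℕ)) h; simp [u, nodeAt, root] at this,
      Finset.mem_univ u⟩
    rw [← hG u huS, mul_assoc, ← prodMap_mulSingle ρ hρ u G, ← map_mul,
      prodMap_eq_zero ρ hρ _ u, mul_zero]
    simp only [Pi.mul_apply, Pi.mulSingle_eq_same, F, if_pos (onPath_nodeAt w _), u]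
    split_ifs <;> simp [hGZ, hGYZ]
  set h := star x * x + x * star x with hh
  have hhT : h * T = T := by
    have e : h = 1 - r * r := by rw [hrr]; abel
    rw [e, sub_mul, one_mul, mul_assoc, hrT, mul_zero, sub_zero]
  set y₀ := ρ root Y with hy₀
  have hy₀T : y₀ * star y₀ * T = T := by
    rw [hy₀, ← map_star, ← map_mul, Finset.mul_sum]
    refine Finset.sum_congr rfl fun w _ => ?_
    rw [← prodMap_mulSingle ρ hρ root, ← map_mul]
    congr 1
    funext u
    by_cases hu : u = root
    · subst hu
      simp only [Pi.mul_apply, Pi.mulSingle_eq_same, F,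
        if_pos (root_onPath w (u := root) rfl)]
      rw [if_neg (by simp [root])]
      exact hYYZ _
    · simp [hu]
  have hy₀sq : y₀ * y₀ = 0 := by rw [hy₀, ← map_mul, hY, map_zero]
  have hy0T : y₀ * T = 0 := by
    rw [← hy₀T, ← mul_assoc, ← mul_assoc, hy₀sq]; simp
  have hTy0 : star T * star y₀ = 0 := by rw [← star_mul, hy0T, star_zero]
  have hcy : ∀ b, Commute (ρ root b) x ∧ Commute (ρ root b) (star x) ∧ Commute (ρ root b) r :=
    fun b => hcom _ fun i hi c => hρ (Finset.mem_erase.1 hi).1.symm b c
  have cy : Commute y₀ x := (hcy Y).1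
  have cy' : Commute y₀ (star x) := (hcy Y).2.1
  have dy : Commute (star y₀) x := by rw [hy₀, ← map_star]; exact (hcy _).1
  have dy' : Commute (star y₀) (star x) := by rw [hy₀, ← map_star]; exact (hcy _).2.1
  have hxx : x * star x * h = x * star x * (x * star x) := by
    have e : x * star x * (star x * x) = 0 := by
      rw [mul_assoc, ← mul_assoc (star x) (star x), ← star_mul, hx]; simp
    rw [hh, mul_add, e, zero_add]
  have hxh : x * h = x * star x * x := by
    rw [hh, mul_add, ← mul_assoc x x, hx, zero_mul, add_zero, ← mul_assoc]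
  set W := x * star x + x * star y₀ with hW
  have hWW : star T * (star W * W) * T = star T * T := by
    have e : star W * W = x * star x * (x * star x) + x * star x * x * star y₀ +
        y₀ * (star x * (x * star x)) + y₀ * (star x * x) * star y₀ := by
      rw [hW, star_add, star_mul, star_mul, star_star, star_star]; noncomm_ring
    have t1 : star T * (x * star x * x * star y₀) * T = 0 := by
      rw [← ((dy.mul_right dy').mul_right dy).eq, ← mul_assoc (star T), hTy0]; simp
    have t2 : star T * (y₀ * (star x * (x * star x))) * T = 0 := by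
      rw [(cy'.mul_right (cy.mul_right cy')).eq, mul_assoc, mul_assoc _ y₀ T, hy0T]; simp
    have t3 : star T * (y₀ * (star x * x) * star y₀) * T = star T * (star x * x) * T := by
      rw [(cy'.mul_right cy).eq, mul_assoc (star x * x) y₀, mul_assoc (star T),
        mul_assoc (star x * x), hy₀T, ← mul_assoc]
    have t0 : star T * (x * star x * (x * star x)) * T = star T * (x * star x) * T := by
      rw [← hxx, mul_assoc, mul_assoc (x * star x), hhT, ← mul_assoc]
    rw [e]
    simp only [mul_add, add_mul]
    rw [t0, t1, t2, t3, add_zero, add_zero, ← add_mul, ← mul_add, add_comm (x * star x), ← hh,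
      mul_assoc, hhT]
  refine ⟨x, W * T * r, hx, ?_, ?_⟩
  · calc star (W * T * r) * (W * T * r) = r * (star T * (star W * W) * T) * r := by
          rw [star_mul, star_mul, hr.star_eq]; noncomm_ring
      _ = 1 - h := by rw [hWW, mul_assoc, hTT, hrr]
  · have e1 : x * star x * (x * star x) * T = x * star x * T := by rw [← hxx, mul_assoc, hhT]
    have e2 : x * star x * (x * star y₀) * T = x * star y₀ * T := by
      have cd : Commute (star y₀) h := (dy'.mul_right dy).add_right (dy.mul_right dy')
      rw [← mul_assoc, ← hxh, mul_assoc x h, ← cd.eq, mul_assoc, mul_assoc, hhT, ← mul_assoc]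
    calc x * star x * (W * T * r)
        = (x * star x * (x * star x) * T + x * star x * (x * star y₀) * T) * r := by
          rw [hW]; noncomm_ring
      _ = W * T * r := by rw [e1, e2, hW]; noncomm_ring

end Vale.P101
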