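import Vale.Agent.P101.Commutator

/-!
# P101: two orthogonal elements each generating the whole algebra
-/

namespace Vale.P101

variable {E : Type*} [CStarAlgebra E]

/-- The sum of the grid products whose index sum lies in a residue window. -/
theorem exists_orth (hE : CopyProp E) (h : Full (commSet E)) :
    ∃ a b : E, IsSelfAdjoint a ∧ IsSelfAdjoint b ∧ a * b = 0 ∧ Full {a} ∧ Full {b * b} := by
  classical
  obtain ⟨T, n, hT, hn, hspec, hfull⟩ := exists_separated hE h
  obtain ⟨K, u, c, v, hc, hsum⟩ := hfull.exists_sum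
  choose p q hp hq hpq e he using hc
  set N := n * 30 with hN
  set M := n * 11 with hM
  set W := N + 3 * M + 1 with hW
  set per := 4 * W with hper
  let s : Set E := Set.range u ∪ Set.range v ∪ Set.range e ∪
    Set.range (fun i : Fin (N + 1) => cfc (hat N i) T)
  have hs : s.Finite := by simp [s, Set.finite_range]
  let U : Fin K → gen s := fun t => ⟨u t, StarAlgebra.subset_adjoin ℂ s (by simp [s])⟩
  let V : Fin K → gen s := fun t => ⟨v t, StarAlgebra.subset_adjoin ℂ s (by simp [s])⟩
  let Ee : Fin K → gen s := fun t => ⟨e t, StarAlgebra.subset_adjoin ℂ s (by simp [s])⟩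
  let H : Fin (N + 1) → gen s := fun i =>
    ⟨cfc (hat N i) T, StarAlgebra.subset_adjoin ℂ s (by simp [s])⟩
  have hH1 : ∑ i, H i = 1 := by
    apply Subtype.ext
    simp only [AddSubmonoidClass.coe_finsetSum, OneMemClass.coe_one, H]
    rw [← Finset.sum_range (fun i => cfc (hat N i) T), ← cfc_sum_fun _ _ (continuous_hat N) hT,
      cfc_congr (g := fun _ : ℝ => (1 : ℝ)) fun x hx => sum_hat N (hspec x hx).1 (hspec x hx).2,
      cfc_const_one ℝ T]
  have hHsa : ∀ i, star (H i) = H i := fun i =>
    Subtype.ext (cfc_predicate (p := IsSelfAdjoint) (hat N i) T).star_eq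
  have hH0 : ∀ i j : Fin (N + 1), (i : ℕ) + 2 ≤ j ∨ (j : ℕ) + 2 ≤ i → H i * H j = 0 := by
    intro i j hij
    apply Subtype.ext
    show cfc (hat N i) T * cfc (hat N j) T = 0
    rw [← cfc_mul _ _ T (continuous_hat N i).continuousOn (continuous_hat N j).continuousOn,
      ← cfc_zero ℝ T]
    refine cfc_congr fun x _ => ?_
    rcases hij with hij | hij
    · exact hat_mul_hat N hij x
    · show hat N i x * hat N j x = 0
      rw [mul_comm]; exact hat_mul_hat N hij x
  obtain ⟨ρ, hρ⟩ := hE.exists_copies hs (ι := Fin M)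
  let π := prodMap ρ hρ
  let win : ℕ → E := fun c => ∑ P : Fin M → Fin (N + 1),
    if InWin per c (W + 2 * M) (∑ k, (P k : ℕ)) then π (fun k => H (P k)) else 0
  have hwin_sa : ∀ c, IsSelfAdjoint (win c) := fun c => isSelfAdjoint_sum _ fun P _ => by
    split_ifs
    · show star _ = _
      rw [star_prodMap]
      exact congrArg π (funext fun k => hHsa (P k))
    · exact IsSelfAdjoint.zero E
  have hdeep : ∀ c, ∀ P : Fin M → Fin (N + 1), InWin per (c + M) W (∑ k, (P k : ℕ)) →
      win c * π (fun k => H (P k)) = π (fun k => H (P k)) := by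
    intro c P hP
    have h1 : (∑ Q : Fin M → Fin (N + 1), π (fun k => H (Q k))) = 1 := by
      rw [← prodMap_sum ρ hρ (fun _ i => H i), hH1]
      exact map_one π
    conv_rhs => rw [← one_mul (π (fun k => H (P k))), ← h1, Finset.sum_mul]
    rw [Finset.sum_mul]
    refine Finset.sum_congr rfl fun Q _ => ?_
    by_cases hQ : InWin per c (W + 2 * M) (∑ k, (Q k : ℕ))
    · rw [if_pos hQ]
    · rw [if_neg hQ, zero_mul, ← map_mul]
      symm
      by_cases hnb : ∀ k, (P k : ℕ) ≤ Q k + 1 ∧ (Q k : ℕ) ≤ P k + 1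
      · exact absurd (hP.neighbour hnb) hQ
      · simp only [not_forall] at hnb
        obtain ⟨k, hk⟩ := hnb
        exact prodMap_eq_zero ρ hρ _ k (hH0 _ _ (by omega))
  have h1B : (1 : gen s) = ∑ t, U t * (H ⟨p t, Nat.lt_succ_of_le (hp t)⟩ * Ee t *
      H ⟨q t, Nat.lt_succ_of_le (hq t)⟩) * V t := by
    apply Subtype.ext
    simp only [AddSubmonoidClass.coe_finsetSum, OneMemClass.coe_one, MulMemClass.coe_mul]
    rw [← hsum]
    exact Finset.sum_congr rfl fun t _ => by rw [he t]
  have hfullwin : ∀ c, c + M ≤ per → ∀ z : E, (∀ P : Fin M → Fin (N + 1),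
      InWin per (c + M) W (∑ k, (P k : ℕ)) → π (fun k => H (P k)) ∈ twoSided {z}) →
      Full {z} := by
    intro c hcM z hz
    show (1 : E) ∈ twoSided {z}
    rw [show (1 : E) = π (fun _ => ∑ t, U t * (H ⟨p t, Nat.lt_succ_of_le (hp t)⟩ * Ee t *
      H ⟨q t, Nat.lt_succ_of_le (hq t)⟩) * V t) by rw [← h1B]; exact (map_one π).symm,
      prodMap_sum ρ hρ (fun _ t => U t * (H ⟨p t, Nat.lt_succ_of_le (hp t)⟩ * Ee t *
        H ⟨q t, Nat.lt_succ_of_le (hq t)⟩) * V t)]
    refine Submodule.sum_mem _ fun τ _ => ?_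
    obtain ⟨P, hP, hwinP⟩ := exists_choice_inWin (N := N) (W := W) (per := per) (c := c + M)
      (by omega) (by omega) hcM (fun k => min (p (τ k)) (q (τ k)))
      (fun k => max (p (τ k)) (q (τ k))) (fun k => min_le_max)
      (fun k => max_le (hp _) (hq _)) (by
        have : ∀ k, min (p (τ k)) (q (τ k)) + 30 ≤ max (p (τ k)) (q (τ k)) := fun k => by
          rcases hpq (τ k) with hh | hh <;> omega
        have := Finset.sum_le_sum (s := Finset.univ) fun k _ => this k
        rw [Finset.sum_add_distrib, Finset.sum_const, Finset.card_fin, smul_eq_mul] at this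
        omega)
    have hPN : ∀ k, P k < N + 1 := fun k => by
      have := hp (τ k); have := hq (τ k)
      rcases hP k with hh | hh <;> omega
    let P' : Fin M → Fin (N + 1) := fun k => ⟨P k, hPN k⟩
    have hfac : (fun k => U (τ k) * (H ⟨p (τ k), Nat.lt_succ_of_le (hp _)⟩ * Ee (τ k) *
        H ⟨q (τ k), Nat.lt_succ_of_le (hq _)⟩) * V (τ k)) =
        (fun k => if P k = p (τ k) then U (τ k)
          else U (τ k) * H ⟨p (τ k), Nat.lt_succ_of_le (hp _)⟩ * Ee (τ k)) *
        (fun k => H (P' k)) *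
        (fun k => if P k = p (τ k) then Ee (τ k) *
          H ⟨q (τ k), Nat.lt_succ_of_le (hq _)⟩ * V (τ k) else V (τ k)) := by
      funext k
      by_cases hk : P k = p (τ k)
      · simp [P', hk, mul_assoc]
      · have : P k = q (τ k) := by rcases hP k with hh | hh <;> omega
        simp [P', this ▸ hk, this, mul_assoc]
    rw [hfac]
    simp only [π, map_mul]
    exact mul_mem_twoSided (hz P' hwinP) _ _
  refine ⟨win 0, win (2 * W), hwin_sa _, hwin_sa _, ?_, ?_, ?_⟩
  · rw [Finset.sum_mul_sum]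
    refine Finset.sum_eq_zero fun P _ => Finset.sum_eq_zero fun Q _ => ?_
    split_ifs with hP hQ
    · obtain ⟨k, hk⟩ := exists_far (fun k => (P k : ℕ)) (fun k => (Q k : ℕ)) hP hQ
        (by omega) (by omega)
      rw [← map_mul]
      exact prodMap_eq_zero ρ hρ _ k (hH0 _ _ hk)
    all_goals simp
  · refine hfullwin 0 (by omega) _ fun P hP => ?_
    rw [← hdeep 0 P hP]
    exact right_mem_twoSided (subset_twoSided (Set.mem_singleton _)) _
  · refine hfullwin (2 * W) (by omega) _ fun P hP => ?_
    rw [← hdeep _ P hP, ← hdeep _ P hP, ← mul_assoc]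
    exact right_mem_twoSided (subset_twoSided (Set.mem_singleton _)) _

end Vale.P101
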