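import Vale.Agent.P101.Orth

/-!
# P101: a square-zero element with an exact fullness witness
-/

namespace Vale.P101

variable {E : Type*} [CStarAlgebra E]

theorem exists_full_square_zero (hE : CopyProp E) (h : Full (commSet E)) :
    ∃ y : E, y * y = 0 ∧ Full {y} := by
  classical
  obtain ⟨a, b, ha, hb, hab, hfa, hfb⟩ := exists_orth hE h
  have hba : b * a = 0 := by
    rw [← star_star (b * a), star_mul, ha.star_eq, hb.star_eq, hab, star_zero]
  obtain ⟨K, u, sa, v, hsa, hu⟩ := hfa.exists_sum
  obtain ⟨K', u', sb, v', hsb, hu'⟩ := hfb.exists_sum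
  simp only [Set.mem_singleton_iff] at hsa hsb
  let s : Set E := {a, b} ∪ Set.range u ∪ Set.range v' ∪
    Set.range (fun l : Fin K × Fin K' => v l.1 * u' l.2)
  have hs : s.Finite := by simp [s, Set.finite_range]
  let A : gen s := ⟨a, StarAlgebra.subset_adjoin ℂ s (by simp [s])⟩
  let B : gen s := ⟨b, StarAlgebra.subset_adjoin ℂ s (by simp [s])⟩
  let U : Fin K × Fin K' → gen s := fun l =>
    ⟨u l.1, StarAlgebra.subset_adjoin ℂ s (by simp [s])⟩
  let V : Fin K × Fin K' → gen s := fun l =>
    ⟨v' l.2, StarAlgebra.subset_adjoin ℂ s (by simp [s])⟩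
  let Z : Fin K × Fin K' → gen s := fun l =>
    ⟨v l.1 * u' l.2, StarAlgebra.subset_adjoin ℂ s
      (Or.inr ⟨l, rfl⟩)⟩
  have hAB : A * B = 0 := Subtype.ext hab
  have hBA : B * A = 0 := Subtype.ext hba
  have h1 : (1 : gen s) = ∑ l, U l * (A * Z l * (B * B)) * V l := by
    apply Subtype.ext
    simp only [AddSubmonoidClass.coe_finsetSum, OneMemClass.coe_one, MulMemClass.coe_mul,
      Fintype.sum_prod_type, U, V, A, B, Z]
    rw [← mul_one (1 : E)]
    conv_lhs => arg 1; rw [← hu]
    conv_lhs => arg 2; rw [← hu']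
    rw [Finset.sum_mul_sum]
    simp only [hsa, hsb, mul_assoc]
  obtain ⟨ρ, hρ⟩ := hE.exists_copies hs
    (ι := (Fin K × Fin K') ⊕ (Fin K × Fin K' → Fin K × Fin K'))
  let π := prodMap ρ hρ
  let F : (Fin K × Fin K') × (Fin K × Fin K' → Fin K × Fin K') →
      ((Fin K × Fin K') ⊕ (Fin K × Fin K' → Fin K × Fin K')) → gen s := fun p j =>
    if j = .inl p.1 then A * Z (p.2 p.1) * B else if j = .inr p.2 then A * Z p.1 * B else A
  let R : (Fin K × Fin K') × (Fin K × Fin K' → Fin K × Fin K') →
      ((Fin K × Fin K') ⊕ (Fin K × Fin K' → Fin K × Fin K')) → gen s := fun p j =>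
    if j = .inl p.1 then B else if j = .inr p.2 then B else 1
  refine ⟨∑ p, π (F p), ?_, ?_⟩
  · rw [Finset.sum_mul_sum]
    refine Finset.sum_eq_zero fun p _ => Finset.sum_eq_zero fun p' _ => ?_
    rw [← map_mul]
    refine prodMap_eq_zero ρ hρ _ (.inl p.1) ?_
    have hkill : ∀ X : gen s, A * Z (p.2 p.1) * B * (A * X) = 0 := fun X => by
      rw [← mul_assoc, mul_assoc _ B A, hBA, mul_zero, zero_mul]
    simp only [Pi.mul_apply, F, if_pos]
    split_ifs
    · simpa [mul_assoc] using hkill (Z (p'.2 p'.1) * B)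
    · simpa [mul_assoc] using hkill (Z p'.1 * B)
    · simpa using hkill 1
  · set Y := ∑ p, π (F p)
    have hiso : ∀ p, π (F p * R p) ∈ twoSided {Y} := by
      intro p
      have : Y * π (R p) = π (F p * R p) := by
        rw [Finset.sum_mul, Finset.sum_eq_single p]
        · rw [← map_mul]
        · intro p' _ hne
          rw [← map_mul]
          by_cases h1 : p'.1 = p.1
          · have h2 : p'.2 ≠ p.2 := fun h2 => hne (Prod.ext h1 h2)
            refine prodMap_eq_zero ρ hρ _ (.inr p.2) ?_
            simp [F, R, Ne.symm h2, hAB]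
          · refine prodMap_eq_zero ρ hρ _ (.inl p.1) ?_
            simp [F, R, Ne.symm h1, hAB]
        · simp
      rw [← this]
      exact right_mem_twoSided (subset_twoSided (Set.mem_singleton _)) _
    show (1 : E) ∈ twoSided {Y}
    rw [show (1 : E) = π (fun _ => ∑ l, U l * (A * Z l * (B * B)) * V l) by
      rw [← h1]; exact (map_one π).symm,
      prodMap_sum ρ hρ (fun _ l => U l * (A * Z l * (B * B)) * V l)]
    refine Submodule.sum_mem _ fun τ _ => ?_
    set σ : Fin K × Fin K' → Fin K × Fin K' := fun i => τ (.inl i) with hσ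
    set i := τ (.inr σ) with hi
    have hfac : (fun j => U (τ j) * (A * Z (τ j) * (B * B)) * V (τ j)) =
        (fun j => U (τ j)) * (F (i, σ) * R (i, σ)) *
          (fun j => if j = .inl i ∨ j = .inr σ then V (τ j)
            else Z (τ j) * (B * B) * V (τ j)) := by
      funext j
      by_cases h1 : j = .inl i
      · subst h1; simp [F, R, hσ, mul_assoc]
      · by_cases h2 : j = .inr σ
        · subst h2; simp [F, R, ← hi, mul_assoc]
        · simp [F, R, h1, h2, mul_assoc]
    rw [hfac]
    simp only [map_mul]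
    exact mul_mem_twoSided (by rw [← map_mul]; exact hiso (i, σ)) _ _

/-- The ramp used to normalise: `0` up to `1/2`, `1` from `3/4` on. -/
noncomputable def gam (u : ℝ) : ℝ := clampI (4 * u - 2)

/-- The normalising factor, with `u * phi u ^ 2 = gam u`. -/
noncomputable def phi (u : ℝ) : ℝ := √(gam u / max u (1 / 2))

theorem continuous_gam : Continuous gam := continuous_clampI.comp (by fun_prop)

theorem continuous_phi : Continuous phi := by
  unfold phi
  exact Real.continuous_sqrt.comp (continuous_gam.div (continuous_id.max continuous_const)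
    fun u => (lt_max_of_lt_right (by norm_num)).ne')

theorem gam_one : gam 1 = 1 := clampI_of_one_le (by norm_num)

theorem gam_zero : gam 0 = 0 := clampI_of_nonpos (by norm_num)

theorem phi_one : phi 1 = 1 := by norm_num [phi, gam_one]

theorem phi_zero : phi 0 = 0 := by norm_num [phi, gam_zero]

theorem phi_mul_self (u : ℝ) : phi u * u * phi u = gam u := by
  rcases le_total u (1 / 2) with h | h
  · have : gam u = 0 := clampI_of_nonpos (by linarith)
    simp [phi, this]
  · rw [mul_comm, ← mul_assoc, phi, Real.mul_self_sqrt (div_nonneg (show (0 : ℝ) ≤ gam u from clampI_nonneg _)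
      (le_trans (by norm_num) (le_max_right u (1 / 2)))), max_eq_left h, div_mul_cancel₀]
    positivity

theorem cfc_sandwich {a : E} (_ha : IsSelfAdjoint a) {f : ℝ → ℝ} (hf : Continuous f) :
    cfc f a * a * cfc f a = cfc (fun t => f t * t * f t) a := by
  rw [cfc_mul (fun t => f t * t) f a (hf.mul continuous_id).continuousOn hf.continuousOn,
    cfc_mul f (fun t => t) a hf.continuousOn continuous_id.continuousOn, cfc_id' ℝ a]

/-- `x` with `x * x = 0` commutes with `star x * x + x * star x`. -/
theorem commute_sum_sq {x : E} (hx : x * x = 0) : Commute x (star x * x + x * star x) := by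
  show x * _ = _ * x
  rw [mul_add, add_mul, ← mul_assoc x x, hx, zero_mul, add_zero, mul_assoc (star x) x x, hx,
    mul_zero, zero_add, mul_assoc]

/-- Data of one copy used by the gluing. -/
theorem exists_witness (hE : CopyProp E) (h : Full (commSet E)) :
    ∃ (m : ℕ) (y R g : E) (z : Fin m → E), y * y = 0 ∧ IsSelfAdjoint R ∧ IsSelfAdjoint g ∧
      R * R = 1 - (star y * y + y * star y) ∧ R * g = R ∧
      (∀ l, y * star y * z l = z l ∧ g * z l = 0 ∧ g * (star y * z l) = 0) ∧
      ∑ l, star (z l) * z l = 1 := by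
  let _ := CStarAlgebra.spectralOrder E
  have _ := CStarAlgebra.spectralOrderedRing E
  obtain ⟨Y, hY, hfull⟩ := exists_full_square_zero hE h
  obtain ⟨m, u, c, v, hc, hsum⟩ := hfull.exists_sum
  simp only [Set.mem_singleton_iff] at hc
  simp only [hc] at hsum
  set P := Y * star Y with hP
  have hPsa : IsSelfAdjoint P := IsSelfAdjoint.mul_star_self Y
  set C₀ : ℝ := ∑ i, ‖u i‖ * ‖v i‖ with hC₀
  have hC₀' : 0 ≤ C₀ := Finset.sum_nonneg fun i _ => by positivity
  set δ : ℝ := 1 / (2 * (C₀ + 1)) with hδ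
  set ε : ℝ := δ ^ 2 / 2 with hε
  have hδpos : 0 < δ := by positivity
  have hεpos : 0 < ε := by positivity
  -- cut-offs
  let χ : ℝ → ℝ := fun t => 1 / √(max t ε)
  let ψ : ℝ → ℝ := fun t => clampI ((t - ε) / ε)
  have hχ : Continuous χ := continuous_const.div (Real.continuous_sqrt.comp
    (continuous_id.max continuous_const)) fun t =>
      (Real.sqrt_pos.2 (lt_max_of_lt_right hεpos)).ne'
  have hψ : Continuous ψ := continuous_clampI.comp (by fun_prop)
  set y₁ := cfc χ P * Y with hy₁
  have hy₁sq : y₁ * y₁ = 0 := by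
    have : Y * cfc χ P = χ 0 • Y := mul_cfc_of_eigen hPsa (by rw [hP, ← mul_assoc, hY]; simp) hχ
    calc cfc χ P * Y * (cfc χ P * Y) = cfc χ P * (Y * cfc χ P) * Y := by noncomm_ring
      _ = 0 := by rw [this, mul_smul_comm, smul_mul_assoc, mul_assoc, hY]; simp
  have hy₁y₁ : y₁ * star y₁ * cfc ψ P = cfc ψ P := by
    rw [hy₁, star_mul, (cfc_predicate (p := IsSelfAdjoint) χ P).star_eq,
      show cfc χ P * Y * (star Y * cfc χ P) = cfc χ P * P * cfc χ P by rw [hP]; noncomm_ring]
    rw [cfc_sandwich hPsa hχ,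
      ← cfc_mul (fun t => χ t * t * χ t) ψ P ((hχ.mul continuous_id).mul hχ).continuousOn
        hψ.continuousOn]
    refine cfc_congr fun t _ => ?_
    rcases le_or_gt t ε with ht | ht
    · have : ψ t = 0 := clampI_of_nonpos (div_nonpos_of_nonpos_of_nonneg (by linarith) hεpos.le)
      simp [this]
    · have : 0 < t := lt_trans hεpos ht
      simp only [χ, max_eq_left ht.le]
      field_simp
      rw [Real.sq_sqrt this.le]
  -- the cut witness still generates
  let W : Fin m → E := fun i => cfc ψ P * (Y * v i)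
  have hcut : ‖(1 - cfc ψ P) * Y‖ ≤ δ := by
    have e : 1 - cfc ψ P = cfc (fun t => 1 - ψ t) P := by
      rw [cfc_sub _ _ P (by fun_prop) hψ.continuousOn, cfc_const_one ℝ P]
    have e2 : ‖(1 - cfc ψ P) * Y‖ * ‖(1 - cfc ψ P) * Y‖ ≤ 2 * ε := by
      rw [← CStarRing.norm_self_mul_star, e, star_mul,
        (cfc_predicate (p := IsSelfAdjoint) (fun t => 1 - ψ t) P).star_eq,
        show cfc (fun t => 1 - ψ t) P * Y * (star Y * cfc (fun t => 1 - ψ t) P) =
          cfc (fun t => 1 - ψ t) P * P * cfc (fun t => 1 - ψ t) P by rw [hP]; noncomm_ring]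
      rw [cfc_sandwich hPsa (f := fun t => 1 - ψ t) (continuous_const.sub hψ)]
      refine norm_cfc_le (by positivity) fun t ht => ?_
      have ht0 : 0 ≤ t := spectrum_nonneg_of_nonneg (mul_star_self_nonneg Y) ht
      have hψ0 := clampI_nonneg ((t - ε) / ε)
      have hψ1 := clampI_le_one ((t - ε) / ε)
      simp only [ψ, Real.norm_eq_abs]
      rw [abs_of_nonneg (mul_nonneg (mul_nonneg (by linarith) ht0) (by linarith))]
      rcases le_or_gt t (2 * ε) with h2 | h2
      · calc _ ≤ 1 * t * 1 := by gcongr <;> linarith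
          _ ≤ _ := by linarith
      · rw [clampI_of_one_le (by rw [le_div_iff₀ hεpos]; linarith)]
        simp; positivity
    have : 2 * ε = δ * δ := by rw [hε]; ring
    nlinarith [norm_nonneg ((1 - cfc ψ P) * Y)]
  have hS : ‖1 - ∑ i, u i * W i‖ < 1 := by
    rw [← hsum, ← Finset.sum_sub_distrib]
    refine lt_of_le_of_lt (norm_sum_le _ _) ?_
    calc _ ≤ ∑ i, ‖u i‖ * ‖v i‖ * δ := Finset.sum_le_sum fun i _ => by
          rw [show u i * Y * v i - u i * W i = u i * ((1 - cfc ψ P) * Y) * v i by
            simp only [W]; noncomm_ring]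
          calc _ ≤ ‖u i‖ * ‖(1 - cfc ψ P) * Y‖ * ‖v i‖ :=
                (norm_mul_le _ _).trans (mul_le_mul_of_nonneg_right (norm_mul_le _ _)
                  (norm_nonneg _))
            _ ≤ ‖u i‖ * δ * ‖v i‖ := by gcongr
            _ = _ := by ring
      _ = C₀ * δ := by rw [hC₀, Finset.sum_mul]
      _ < 1 := by rw [hδ, mul_div, div_lt_one (by positivity)]; linarith
  obtain ⟨S, hSu⟩ : IsUnit (∑ i, u i * W i) := by simpa using isUnit_one_sub_of_norm_lt_one hS
  let u' : Fin m → E := fun i => ↑S⁻¹ * u i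
  have hone : ∑ i, u' i * W i = 1 := by
    simp only [u', mul_assoc, ← Finset.mul_sum, ← hSu, Units.inv_mul]
  set M := ∑ i, star (W i) * W i with hM
  set U2 := ∑ i, u' i * star (u' i) with hU2
  set σ : ℝ := 1 / (‖U2‖ + 1) with hσ
  have hσpos : 0 < σ := by positivity
  have hlow : algebraMap ℝ E σ ≤ M := by
    have key : (0 : E) ≤ ∑ i, star (σ • star (u' i) - W i) * (σ • star (u' i) - W i) :=
      Finset.sum_nonneg fun i _ => star_mul_self_nonneg _
    have hexp : ∑ i, star (σ • star (u' i) - W i) * (σ • star (u' i) - W i) =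
        (σ * σ) • U2 - algebraMap ℝ E (2 * σ) + M := by
      have hone' : ∑ i, star (W i) * star (u' i) = 1 := by
        simpa [star_sum, star_mul] using congrArg star hone
      simp only [star_sub, star_smul, star_star, star_trivial, sub_mul, mul_sub, smul_mul_assoc,
        mul_smul_comm, smul_smul, Finset.sum_sub_distrib, ← Finset.smul_sum, hone, hone', ← hM,
        ← hU2, Algebra.algebraMap_eq_smul_one]
      module
    rw [hexp] at key
    have hU2le : (σ * σ) • U2 ≤ algebraMap ℝ E σ := by
      calc (σ * σ) • U2 ≤ (σ * σ) • algebraMap ℝ E ‖U2‖ :=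
            smul_le_smul_of_nonneg_left (show IsSelfAdjoint U2 from
              isSelfAdjoint_sum _ fun i _ => IsSelfAdjoint.mul_star_self _).le_algebraMap_norm_self
              (by positivity)
        _ ≤ _ := by
            rw [Algebra.algebraMap_eq_smul_one, Algebra.algebraMap_eq_smul_one, smul_smul]
            refine smul_le_smul_of_nonneg_right ?_ zero_le_one
            have : σ * (‖U2‖ + 1) = 1 := by rw [hσ]; field_simp
            nlinarith [norm_nonneg U2]
    have h3 : algebraMap ℝ E (2 * σ) ≤ M + (σ * σ) • U2 := by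
      rw [← sub_nonneg]; convert! key using 1; abel
    have h4 := h3.trans (add_le_add_right hU2le M)
    rw [show algebraMap ℝ E (2 * σ) = algebraMap ℝ E σ + algebraMap ℝ E σ by
      rw [← map_add]; ring_nf] at h4
    exact le_of_add_le_add_right h4
  have hMsa : IsSelfAdjoint M := isSelfAdjoint_sum _ fun i _ => IsSelfAdjoint.star_mul_self _
  have hMspec := (algebraMap_le_iff_le_spectrum hMsa).1 hlow
  let f : ℝ → ℝ := fun t => 1 / √(max t σ)
  have hf : Continuous f := continuous_const.div (Real.continuous_sqrt.comp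
    (continuous_id.max continuous_const)) fun t =>
      (Real.sqrt_pos.2 (lt_max_of_lt_right hσpos)).ne'
  let z : Fin m → E := fun i => W i * cfc f M
  -- normalise
  set t₁ := star y₁ * y₁ + y₁ * star y₁ with ht₁
  have htsa : IsSelfAdjoint t₁ :=
    (IsSelfAdjoint.star_mul_self _).add (IsSelfAdjoint.mul_star_self _)
  have hyz : ∀ l, y₁ * star y₁ * z l = z l := fun l => by
    simp only [z, W, ← mul_assoc, hy₁y₁]
  have htz : ∀ l, t₁ * z l = (1 : ℝ) • z l := fun l => by
    rw [one_smul, ht₁, add_mul, hyz, add_eq_right]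
    calc star y₁ * y₁ * z l = star y₁ * y₁ * (y₁ * star y₁ * z l) := by rw [hyz]
      _ = star y₁ * (y₁ * y₁) * (star y₁ * z l) := by simp only [mul_assoc]
      _ = 0 := by rw [hy₁sq]; simp
  have htyz : ∀ l, t₁ * (star y₁ * z l) = (1 : ℝ) • (star y₁ * z l) := fun l => by
    rw [one_smul, ht₁, add_mul, mul_assoc (star y₁), ← mul_assoc y₁ (star y₁), hyz,
      mul_assoc y₁, ← mul_assoc (star y₁) (star y₁), ← star_mul, hy₁sq]
    simp
  have hcy : Commute y₁ t₁ := commute_sum_sq hy₁sq
  have hy₁φ : Commute (cfc phi t₁) y₁ := (hcy.symm.cfc_real phi)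
  let g₀ : ℝ → ℝ := fun t => clampI (4 - 4 * t)
  have hg₀ : Continuous g₀ := continuous_clampI.comp (by fun_prop)
  let r₀ : ℝ → ℝ := fun t => √(1 - gam t)
  have hr₀ : Continuous r₀ := Real.continuous_sqrt.comp (continuous_const.sub continuous_gam)
  refine ⟨m, y₁ * cfc phi t₁, cfc r₀ t₁, cfc g₀ t₁, z, ?_, cfc_predicate _ _, cfc_predicate _ _,
    ?_, ?_, fun l => ⟨?_, ?_, ?_⟩, ?_⟩
  · rw [mul_assoc, ← mul_assoc (cfc phi t₁), hy₁φ.eq, ← mul_assoc, ← mul_assoc, hy₁sq]
    simp
  · rw [star_mul, (cfc_predicate (p := IsSelfAdjoint) phi t₁).star_eq,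
      show y₁ * cfc phi t₁ * (cfc phi t₁ * star y₁) =
        cfc phi t₁ * (y₁ * star y₁) * cfc phi t₁ by
          have h' : Commute (cfc phi t₁) (star y₁) := by
            have := hy₁φ.star_star
            rwa [(cfc_predicate (p := IsSelfAdjoint) phi t₁).star_eq] at this
          calc y₁ * cfc phi t₁ * (cfc phi t₁ * star y₁)
              = (y₁ * cfc phi t₁) * (star y₁ * cfc phi t₁) := by rw [h'.eq]
            _ = _ := by rw [← hy₁φ.eq]; simp only [mul_assoc],
      show cfc phi t₁ * star y₁ * (y₁ * cfc phi t₁) = cfc phi t₁ * (star y₁ * y₁) * cfc phi t₁ by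
        noncomm_ring, ← add_mul, ← mul_add, ← ht₁,
      ← cfc_mul _ _ t₁ hr₀.continuousOn hr₀.continuousOn]
    rw [cfc_sandwich htsa continuous_phi, ← cfc_const_one ℝ t₁,
      ← cfc_sub (fun _ => (1 : ℝ)) (fun t => phi t * t * phi t) t₁ continuous_const.continuousOn
        ((continuous_phi.mul continuous_id).mul continuous_phi).continuousOn]
    refine cfc_congr fun t _ => ?_
    simp only [r₀, phi_mul_self]
    exact Real.mul_self_sqrt (sub_nonneg.2 (clampI_le_one _))
  · rw [← cfc_mul _ _ t₁ hr₀.continuousOn hg₀.continuousOn]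
    refine cfc_congr fun t _ => ?_
    rcases le_total t (3 / 4) with h | h
    · simp [g₀, clampI_of_one_le (show 1 ≤ 4 - 4 * t by linarith)]
    · simp [r₀, gam, clampI_of_one_le (show 1 ≤ 4 * t - 2 by linarith)]
  · rw [star_mul, (cfc_predicate (p := IsSelfAdjoint) phi t₁).star_eq, mul_assoc, mul_assoc _ _ (z l),
      cfc_mul_of_eigen htsa (htyz l) continuous_phi, phi_one, one_smul, mul_assoc,
      cfc_mul_of_eigen htsa (htyz l) continuous_phi, phi_one, one_smul, ← mul_assoc, hyz]
  · rw [cfc_mul_of_eigen htsa (htz l) hg₀]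
    norm_num [g₀, clampI_of_nonpos]
  · rw [star_mul, (cfc_predicate (p := IsSelfAdjoint) phi t₁).star_eq, mul_assoc _ _ (z l),
      cfc_mul_of_eigen htsa (htyz l) continuous_phi, phi_one, one_smul,
      cfc_mul_of_eigen htsa (htyz l) hg₀]
    norm_num [g₀, clampI_of_nonpos]
  · simp only [z, star_mul, (cfc_predicate (p := IsSelfAdjoint) f M).star_eq]
    rw [show ∑ i, cfc f M * star (W i) * (W i * cfc f M) = cfc f M * M * cfc f M by
      rw [hM, Finset.mul_sum, Finset.sum_mul]
      exact Finset.sum_congr rfl fun i _ => by noncomm_ring]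
    rw [cfc_sandwich hMsa hf, ← cfc_const_one ℝ M]
    refine cfc_congr fun t ht => ?_
    have htσ : σ ≤ t := hMspec t ht
    have : 0 < t := hσpos.trans_le htσ
    simp only [f, max_eq_left htσ]
    field_simp
    rw [Real.sq_sqrt this.le]

end Vale.P101
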